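import Mathlib

/-!
# The invariant conformal structure (P198, Stage 2, block ST)

Pure plane analysis.  `PG G` is the pseudogroup of transition maps `γ_g = f g f⁻¹` on an open subset
of the plane.  The invariant field of quadratic forms is the second moment (Binet-Legendre) field
`B x = ∫_{K x} v ⊗ v dv`, where `K x` is the convex set of the tangent vectors which are not
stretched by any of the (area-normalised) derivatives at `x`.
-/

set_option autoImplicit false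

open MeasureTheory Set Filter Topology
open scoped ENNReal RealInnerProductSpace

namespace P198ST

lemma det_comp' (L M : ℂ →L[ℝ] ℂ) : (L.comp M).det = L.det * M.det := by
  simp only [ContinuousLinearMap.det]
  exact LinearMap.det_comp _ _

lemma det_id' : (ContinuousLinearMap.id ℝ ℂ).det = 1 := by
  simp only [ContinuousLinearMap.det]
  exact LinearMap.det_id

/-- A pseudogroup of transition maps of the plane, indexed by a group. -/
structure PG (G : Type*) [Group G] where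
  γ : G → OpenPartialHomeomorph ℂ ℂ
  maps_inv : ∀ g x, x ∈ (γ g).source → γ g x ∈ (γ g⁻¹).source
  src_iff : ∀ g h x, x ∈ (γ h).source → (γ h x ∈ (γ g).source ↔ x ∈ (γ (g * h)).source)
  comp : ∀ g h x, x ∈ (γ h).source → γ h x ∈ (γ g).source → γ (g * h) x = γ g (γ h x)
  one : ∀ x ∈ (γ 1).source, γ 1 x = x

namespace PG

variable {G : Type*} [Group G] (P : PG G)

/-- `T g x`: the derivative of `γ_g` at `x`. -/
noncomputable def T (g : G) (x : ℂ) : ℂ →L[ℝ] ℂ := fderiv ℝ (P.γ g) x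

/-- the points where `γ_g` is differentiable with invertible derivative -/
def Reg (g : G) : Set ℂ :=
  {x | x ∈ (P.γ g).source ∧ DifferentiableAt ℝ (P.γ g) x ∧ (P.T g x).det ≠ 0}

/-- vectors of norm `≤ 1` which are not stretched by any area-normalised derivative. -/
def K (x : ℂ) : Set ℂ :=
  {v | ‖v‖ ≤ 1 ∧ ∀ g, x ∈ P.Reg g → ‖P.T g x v‖ ^ 2 ≤ |(P.T g x).det|}

/-- the invariant field -/
noncomputable def B (x : ℂ) : ℂ →L[ℝ] ℂ := ∫ v in P.K x, (innerSL ℝ v).smulRight v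

lemma mem_one {g : G} {x : ℂ} (hx : x ∈ (P.γ g).source) : x ∈ (P.γ 1).source := by
  have h := (P.src_iff g⁻¹ g x hx).1 (P.maps_inv g x hx)
  simpa using h

lemma inv_apply {g : G} {x : ℂ} (hx : x ∈ (P.γ g).source) : P.γ g⁻¹ (P.γ g x) = x := by
  have h := P.comp g⁻¹ g x hx (P.maps_inv g x hx)
  rw [inv_mul_cancel, P.one x (P.mem_one hx)] at h
  exact h.symm

lemma src_mul {g h : G} {x : ℂ} (hx : x ∈ (P.γ h).source) :
    P.γ h x ∈ (P.γ (g * h⁻¹)).source ↔ x ∈ (P.γ g).source := by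
  have := P.src_iff (g * h⁻¹) h x hx
  rwa [inv_mul_cancel_right] at this

lemma isOpen_src (g : G) : IsOpen (P.γ g).source := (P.γ g).open_source

lemma T_one {x : ℂ} (hx : x ∈ (P.γ 1).source) : HasFDerivAt (P.γ 1) (ContinuousLinearMap.id ℝ ℂ) x := by
  have h : (P.γ 1 : ℂ → ℂ) =ᶠ[𝓝 x] id := by
    filter_upwards [(P.isOpen_src 1).mem_nhds hx] with y hy using P.one y hy
  exact (hasFDerivAt_id x).congr_of_eventuallyEq h

lemma reg_one {x : ℂ} (hx : x ∈ (P.γ 1).source) : x ∈ P.Reg 1 ∧ P.T 1 x = ContinuousLinearMap.id ℝ ℂ := by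
  have h := P.T_one hx
  have hT : P.T 1 x = ContinuousLinearMap.id ℝ ℂ := h.fderiv
  refine ⟨⟨hx, h.differentiableAt, ?_⟩, hT⟩
  rw [hT, det_id']; exact one_ne_zero

/-- derivative of the inverse at an image point -/
lemma hasFDerivAt_inv {g : G} {x : ℂ} (hx : x ∈ P.Reg g) (e : ℂ ≃L[ℝ] ℂ)
    (he : (e : ℂ →L[ℝ] ℂ) = P.T g x) :
    HasFDerivAt (P.γ g⁻¹) (e.symm : ℂ →L[ℝ] ℂ) (P.γ g x) := by
  have hs := hx.1
  have hd : HasFDerivAt (P.γ g) (e : ℂ →L[ℝ] ℂ) x := by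
    rw [he]; exact hx.2.1.hasFDerivAt
  have hy : P.γ g x ∈ (P.γ g⁻¹).source := P.maps_inv g x hs
  have hxy : P.γ g⁻¹ (P.γ g x) = x := P.inv_apply hs
  have hcont : ContinuousAt (P.γ g⁻¹) (P.γ g x) :=
    (P.γ g⁻¹).continuousAt hy
  have hd' : HasFDerivAt (P.γ g) (e : ℂ →L[ℝ] ℂ) (P.γ g⁻¹ (P.γ g x)) := by rw [hxy]; exact hd
  refine HasFDerivAt.of_local_left_inverse hcont hd' ?_
  filter_upwards [(P.isOpen_src g⁻¹).mem_nhds hy] with z hz
  have := P.inv_apply hz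
  rwa [inv_inv] at this

/-- the equivalence attached to a regular point -/
lemma exists_equiv {L : ℂ →L[ℝ] ℂ} (h : L.det ≠ 0) : ∃ e : ℂ ≃L[ℝ] ℂ, (e : ℂ →L[ℝ] ℂ) = L :=
  ⟨L.toContinuousLinearEquivOfDetNeZero h, by
    ext v; simp⟩

lemma reg_mul {g h : G} {x : ℂ} (hx : x ∈ P.Reg h) :
    P.γ h x ∈ P.Reg (g * h⁻¹) ↔ x ∈ P.Reg g := by
  obtain ⟨e, he⟩ := exists_equiv hx.2.2
  have hinv := P.hasFDerivAt_inv hx e he
  constructor
  · intro hy
    have hxs : x ∈ (P.γ g).source := (P.src_mul hx.1).1 hy.1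
    have hev : (P.γ g : ℂ → ℂ) =ᶠ[𝓝 x] fun z => P.γ (g * h⁻¹) (P.γ h z) := by
      have h1 : ∀ᶠ z in 𝓝 x, z ∈ (P.γ h).source := (P.isOpen_src h).mem_nhds hx.1
      have h2 : ∀ᶠ z in 𝓝 x, z ∈ (P.γ g).source := (P.isOpen_src g).mem_nhds hxs
      filter_upwards [h1, h2] with z hz1 hz2
      have := P.comp (g * h⁻¹) h z hz1 ((P.src_mul hz1).2 hz2)
      rwa [inv_mul_cancel_right] at this
    have hd : HasFDerivAt (P.γ g) ((P.T (g * h⁻¹) (P.γ h x)).comp (P.T h x)) x := by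
      have := (hy.2.1.hasFDerivAt.comp x hx.2.1.hasFDerivAt)
      exact this.congr_of_eventuallyEq hev
    refine ⟨hxs, hd.differentiableAt, ?_⟩
    have : P.T g x = (P.T (g * h⁻¹) (P.γ h x)).comp (P.T h x) := hd.fderiv
    rw [this, det_comp']
    exact mul_ne_zero hy.2.2 hx.2.2
  · intro hy
    have hys : P.γ h x ∈ (P.γ (g * h⁻¹)).source := (P.src_mul hx.1).2 hy.1
    have hyi : P.γ h x ∈ (P.γ h⁻¹).source := P.maps_inv h x hx.1
    have hev : (P.γ (g * h⁻¹) : ℂ → ℂ) =ᶠ[𝓝 (P.γ h x)] fun z => P.γ g (P.γ h⁻¹ z) := by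
      have h1 : ∀ᶠ z in 𝓝 (P.γ h x), z ∈ (P.γ h⁻¹).source := (P.isOpen_src h⁻¹).mem_nhds hyi
      have h2 : ∀ᶠ z in 𝓝 (P.γ h x), z ∈ (P.γ (g * h⁻¹)).source :=
        (P.isOpen_src (g * h⁻¹)).mem_nhds hys
      filter_upwards [h1, h2] with z hz1 hz2
      exact P.comp g h⁻¹ z hz1 ((P.src_iff g h⁻¹ z hz1).2 hz2)
    have hxx : P.γ h⁻¹ (P.γ h x) = x := P.inv_apply hx.1
    have hdg : HasFDerivAt (P.γ g) (P.T g x) (P.γ h⁻¹ (P.γ h x)) := by
      rw [hxx]; exact hy.2.1.hasFDerivAt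
    have hd : HasFDerivAt (P.γ (g * h⁻¹)) ((P.T g x).comp (e.symm : ℂ →L[ℝ] ℂ)) (P.γ h x) :=
      (hdg.comp _ hinv).congr_of_eventuallyEq hev
    refine ⟨hys, hd.differentiableAt, ?_⟩
    have : P.T (g * h⁻¹) (P.γ h x) = (P.T g x).comp (e.symm : ℂ →L[ℝ] ℂ) := hd.fderiv
    rw [this, det_comp']
    refine mul_ne_zero hy.2.2 ?_
    intro h0
    have h4 := det_comp' (e : ℂ →L[ℝ] ℂ) (e.symm : ℂ →L[ℝ] ℂ)
    rw [h0, mul_zero] at h4
    have h5 : ((e : ℂ →L[ℝ] ℂ).comp (e.symm : ℂ →L[ℝ] ℂ)) = ContinuousLinearMap.id ℝ ℂ := by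
      apply ContinuousLinearMap.ext
      intro v
      exact e.apply_symm_apply v
    rw [h5, det_id'] at h4
    exact one_ne_zero h4

/-- cocycle identity for derivatives at regular points -/
lemma T_mul {g h : G} {x : ℂ} (hx : x ∈ P.Reg h) (hg : x ∈ P.Reg g) :
    P.T g x = (P.T (g * h⁻¹) (P.γ h x)).comp (P.T h x) := by
  have hy := (P.reg_mul (g := g) hx).2 hg
  have hev : (P.γ g : ℂ → ℂ) =ᶠ[𝓝 x] fun z => P.γ (g * h⁻¹) (P.γ h z) := by
    have h1 : ∀ᶠ z in 𝓝 x, z ∈ (P.γ h).source := (P.isOpen_src h).mem_nhds hx.1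
    have h2 : ∀ᶠ z in 𝓝 x, z ∈ (P.γ g).source := (P.isOpen_src g).mem_nhds hg.1
    filter_upwards [h1, h2] with z hz1 hz2
    have := P.comp (g * h⁻¹) h z hz1 ((P.src_mul hz1).2 hz2)
    rwa [inv_mul_cancel_right] at this
  have hd : HasFDerivAt (P.γ g) ((P.T (g * h⁻¹) (P.γ h x)).comp (P.T h x)) x :=
    (hy.2.1.hasFDerivAt.comp x hx.2.1.hasFDerivAt).congr_of_eventuallyEq hev
  exact hd.fderiv

lemma det_mul {g h : G} {x : ℂ} (hx : x ∈ P.Reg h) (hg : x ∈ P.Reg g) :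
    (P.T g x).det = (P.T (g * h⁻¹) (P.γ h x)).det * (P.T h x).det := by
  rw [P.T_mul hx hg, det_comp']

lemma K_subset (x : ℂ) : P.K x ⊆ Metric.closedBall 0 1 := by
  intro v hv
  simpa using hv.1

lemma mem_K_iff {x : ℂ} (hx : x ∈ (P.γ 1).source) (v : ℂ) :
    v ∈ P.K x ↔ ∀ g, x ∈ P.Reg g → ‖P.T g x v‖ ^ 2 ≤ |(P.T g x).det| := by
  constructor
  · intro h; exact h.2
  · intro h
    refine ⟨?_, h⟩
    obtain ⟨h1, h2⟩ := P.reg_one hx
    have := h 1 h1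
    rw [h2, det_id', abs_one] at this
    have h3 : ‖v‖ ^ 2 ≤ 1 := this
    nlinarith [norm_nonneg v]

/-- **Equivariance of `K`**. -/
lemma mem_K_equiv {h : G} {x : ℂ} (hx : x ∈ P.Reg h) (v : ℂ) :
    ((Real.sqrt |(P.T h x).det|)⁻¹ • P.T h x v) ∈ P.K (P.γ h x) ↔ v ∈ P.K x := by
  have hx1 : x ∈ (P.γ 1).source := P.mem_one hx.1
  have hy1 : P.γ h x ∈ (P.γ 1).source := P.mem_one (P.maps_inv h x hx.1)
  set D := |(P.T h x).det| with hD
  have hDpos : 0 < D := abs_pos.2 hx.2.2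
  rw [P.mem_K_iff hx1, P.mem_K_iff hy1]
  have key : ∀ g, x ∈ P.Reg g →
      (‖P.T (g * h⁻¹) (P.γ h x) ((Real.sqrt D)⁻¹ • P.T h x v)‖ ^ 2 ≤ |(P.T (g * h⁻¹) (P.γ h x)).det|
        ↔ ‖P.T g x v‖ ^ 2 ≤ |(P.T g x).det|) := by
    intro g hg
    have h1 : P.T g x v = P.T (g * h⁻¹) (P.γ h x) (P.T h x v) := by
      rw [P.T_mul hx hg]; rfl
    have h2 : |(P.T g x).det| = |(P.T (g * h⁻¹) (P.γ h x)).det| * D := by
      rw [P.det_mul hx hg, abs_mul]
    rw [h1, h2, map_smul, norm_smul, norm_inv, Real.norm_of_nonneg (Real.sqrt_nonneg _), mul_pow,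
      inv_pow, Real.sq_sqrt hDpos.le, inv_mul_le_iff₀ hDpos, mul_comm D]
  constructor
  · intro H g hg
    exact (key g hg).1 (H (g * h⁻¹) ((P.reg_mul hx).2 hg))
  · intro H g hg
    have h3 : x ∈ P.Reg (g * h) := by
      rw [← P.reg_mul (g := g * h) hx, mul_inv_cancel_right]; exact hg
    have h4 := (key (g * h) h3).2 (H (g * h) h3)
    rwa [mul_inv_cancel_right] at h4

end PG

end P198ST
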