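import Mathlib.Analysis.Calculus.Rademacher
import Mathlib.MeasureTheory.Covering.Besicovitch
import Mathlib.MeasureTheory.Covering.BesicovitchVectorSpace
import Mathlib.MeasureTheory.Measure.Lebesgue.Complex
import Mathlib.LinearAlgebra.Complex.FiniteDimensional

/-!
# P198, Stage 2, block ST1 (helper221): Stepanov's theorem and a.e. differentiability of
homeomorphisms whose images of small balls are fat.
-/

open MeasureTheory Metric Set Filter Topology
open scoped ENNReal NNReal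

namespace P198ST

variable {E F : Type*} [NormedAddCommGroup E] [NormedSpace ℝ E] [FiniteDimensional ℝ E]
  [MeasurableSpace E] [BorelSpace E] [NormedAddCommGroup F] [NormedSpace ℝ F]
  {μ : Measure E} [μ.IsAddHaarMeasure]

/-- At a density point `x` of `s`, every point `y` close to `x` is within `ε * dist y x` of a point
of `s`. -/
theorem eventually_exists_near {s : Set E} {x : E}
    (h : Tendsto (fun r => μ (s ∩ closedBall x r) / μ (closedBall x r)) (𝓝[>] 0) (𝓝 1))
    {ε : ℝ} (hε : 0 < ε) (hε1 : ε ≤ 1) :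
    ∃ ρ > 0, ∀ y, 0 < dist y x → dist y x < ρ → ∃ z ∈ s, dist z y ≤ ε * dist y x := by
  set d := Module.finrank ℝ E
  set c : ℝ≥0∞ := ENNReal.ofReal ((ε / 2) ^ d) with hc
  have hc0 : c ≠ 0 := by
    rw [hc]
    have : 0 < (ε / 2) ^ d := by positivity
    simpa using this
  have hctop : c ≠ ⊤ := ENNReal.ofReal_ne_top
  have h1c : 1 - c < 1 := ENNReal.sub_lt_self ENNReal.one_ne_top one_ne_zero hc0
  have hev := h.eventually (lt_mem_nhds h1c)
  obtain ⟨ρ, hρ, hρ'⟩ := (mem_nhdsGT_iff_exists_Ioo_subset' (show (0 : ℝ) < 1 from one_pos)).1 hev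
  refine ⟨ρ / 2, half_pos hρ, fun y hy0 hy => ?_⟩
  by_contra hcon
  push Not at hcon
  set r := dist y x
  have hR : 2 * r ∈ Ioo 0 ρ := ⟨by positivity, by linarith⟩
  have hlt : 1 - c < μ (s ∩ closedBall x (2 * r)) / μ (closedBall x (2 * r)) := hρ' hR
  have hbpos : μ (closedBall x (2 * r)) ≠ 0 := (measure_closedBall_pos μ x (by positivity)).ne'
  have hbtop : μ (closedBall x (2 * r)) ≠ ⊤ := measure_closedBall_lt_top.ne
  have hball : μ (closedBall y (ε * r)) = c * μ (closedBall x (2 * r)) := by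
    rw [Measure.addHaar_closedBall μ y (by positivity), Measure.addHaar_closedBall μ x (by positivity),
      ← mul_assoc, hc, ← ENNReal.ofReal_mul (by positivity)]
    congr 2
    rw [← mul_pow]
    congr 1
    ring
  have hsub : s ∩ closedBall x (2 * r) ∪ closedBall y (ε * r) ⊆ closedBall x (2 * r) := by
    refine union_subset inter_subset_right ?_
    refine closedBall_subset_closedBall' ?_
    nlinarith
  have hdisj : Disjoint (s ∩ closedBall x (2 * r)) (closedBall y (ε * r)) := by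
    rw [Set.disjoint_left]
    rintro z ⟨hzs, -⟩ hz
    exact absurd (mem_closedBall.1 hz) (not_le.2 (hcon z hzs))
  have hadd : μ (s ∩ closedBall x (2 * r)) + c * μ (closedBall x (2 * r))
      ≤ μ (closedBall x (2 * r)) := by
    rw [← hball, ← measure_union hdisj isClosed_closedBall.measurableSet]
    exact measure_mono hsub
  have hdiv : μ (s ∩ closedBall x (2 * r)) / μ (closedBall x (2 * r)) + c ≤ 1 := by
    have := ENNReal.div_le_div_right hadd (μ (closedBall x (2 * r)))
    rwa [ENNReal.add_div, ENNReal.mul_div_cancel_right hbpos hbtop, ENNReal.div_self hbpos hbtop]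
      at this
  have := ENNReal.le_sub_of_add_le_right hctop hdiv
  exact absurd this (not_le.2 hlt)

/-- Differentiability at a density point of a set along which `f` is differentiable and uniformly
pointwise Lipschitz. -/
theorem differentiableAt_of_density {f : E → F} {s : Set E} {x : E} {C δ : ℝ} (hC : 0 ≤ C)
    (hδ : 0 < δ) (hs : ∀ z ∈ s, ∀ y, dist y z < δ → ‖f y - f z‖ ≤ C * ‖y - z‖)
    (hdens : Tendsto (fun r => μ (s ∩ closedBall x r) / μ (closedBall x r)) (𝓝[>] 0) (𝓝 1))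
    (hd : DifferentiableWithinAt ℝ f s x) : DifferentiableAt ℝ f x := by
  obtain ⟨L, hL⟩ := hd
  refine ⟨L, ?_⟩
  rw [hasFDerivAt_iff_isLittleO, Asymptotics.isLittleO_iff]
  intro c hc
  have hL' := (hasFDerivWithinAt_iff_isLittleO.1 hL)
  rw [Asymptotics.isLittleO_iff] at hL'
  set K : ℝ := C + ‖L‖ + 2 with hK
  have hKpos : 0 < K := by positivity
  set ε : ℝ := min 1 (c / K) with hεdef
  have hε : 0 < ε := lt_min one_pos (div_pos hc hKpos)
  have hε1 : ε ≤ 1 := min_le_left _ _
  have hεK : ε * K ≤ c := by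
    calc ε * K ≤ c / K * K := by gcongr; exact min_le_right _ _
      _ = c := by field_simp
  obtain ⟨ρ, hρ, hρ'⟩ := eventually_exists_near hdens hε hε1
  obtain ⟨ρ₁, hρ₁, hρ₁'⟩ := Metric.mem_nhdsWithin_iff.1 (hL' hε)
  have hpos : 0 < min ρ (min (ρ₁ / 2) δ) := by positivity
  filter_upwards [Metric.ball_mem_nhds x hpos] with y hy
  rw [mem_ball, lt_min_iff, lt_min_iff] at hy
  obtain ⟨hy1, hy2, hy3⟩ := hy
  rcases (dist_nonneg (x := y) (y := x)).eq_or_lt with h0 | h0
  · rw [eq_comm, dist_eq_zero] at h0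
    simp [h0]
  obtain ⟨z, hzs, hz⟩ := hρ' y h0 hy1
  have hzx : dist z x ≤ 2 * dist y x := by
    have := dist_triangle z y x
    nlinarith
  have h1 : ‖f y - f z‖ ≤ C * (ε * dist y x) := by
    have h2 : dist y z ≤ ε * dist y x := by rwa [dist_comm]
    refine (hs z hzs y (lt_of_le_of_lt h2 (lt_of_le_of_lt ?_ hy3))).trans ?_
    · nlinarith
    · rw [← dist_eq_norm]
      gcongr
  have h2 : ‖f z - f x - L (z - x)‖ ≤ ε * (2 * dist y x) := by
    have : z ∈ ball x ρ₁ ∩ s := ⟨mem_ball.2 (by linarith), hzs⟩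
    refine (hρ₁' this).trans ?_
    rw [← dist_eq_norm]
    gcongr
  have h3 : ‖L (z - y)‖ ≤ ‖L‖ * (ε * dist y x) := by
    refine (L.le_opNorm _).trans ?_
    rw [← dist_eq_norm]
    gcongr
  have hsplit : f y - f x - L (y - x)
      = (f y - f z) + (f z - f x - L (z - x)) + L (z - y) := by
    have e : L (y - x) = L (z - x) - L (z - y) := by
      rw [← map_sub]; congr 1; abel
    rw [e]; abel
  rw [hsplit, ← dist_eq_norm y x]
  calc ‖(f y - f z) + (f z - f x - L (z - x)) + L (z - y)‖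
      ≤ ‖f y - f z‖ + ‖f z - f x - L (z - x)‖ + ‖L (z - y)‖ := norm_add₃_le
    _ ≤ C * (ε * dist y x) + ε * (2 * dist y x) + ‖L‖ * (ε * dist y x) := by gcongr
    _ = ε * K * dist y x := by rw [hK]; ring
    _ ≤ c * dist y x := by gcongr

/-- **Stepanov's theorem.** -/
theorem stepanov [FiniteDimensional ℝ F] (f : E → F) :
    ∀ᵐ x ∂μ, (∃ C δ : ℝ, 0 < δ ∧ ∀ y, dist y x < δ → ‖f y - f x‖ ≤ C * ‖y - x‖) →
      DifferentiableAt ℝ f x := by
  let S : ℕ → Set E := fun n => {x | ∀ y, dist y x < 1 / ((n : ℝ) + 1) →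
    ‖f y - f x‖ ≤ n * ‖y - x‖}
  let q : ℕ → E := TopologicalSpace.denseSeq E
  let T : ℕ → ℕ → Set E := fun n k => S n ∩ ball (q k) (1 / ((n : ℝ) + 1) / 2)
  have hlip : ∀ n k : ℕ, LipschitzOnWith (n : ℝ≥0) f (T n k) := by
    intro n k
    refine LipschitzOnWith.of_dist_le_mul ?_
    rintro x ⟨hx, hx'⟩ y ⟨hy, hy'⟩
    rw [dist_eq_norm, dist_eq_norm]
    have := hy x ?_
    · simpa using this
    · have h1 := mem_ball.1 hx'
      have h2 := mem_ball'.1 hy'
      have := dist_triangle x (q k) y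
      linarith
  have h1 : ∀ᵐ x ∂μ, ∀ n k, x ∈ T n k → DifferentiableWithinAt ℝ f (T n k) x := by
    rw [ae_all_iff]; intro n
    rw [ae_all_iff]; intro k
    exact (hlip n k).ae_differentiableWithinAt_of_mem
  have h2 : ∀ᵐ x ∂μ, ∀ n k, x ∈ T n k →
      Tendsto (fun r => μ (T n k ∩ closedBall x r) / μ (closedBall x r)) (𝓝[>] 0) (𝓝 1) := by
    rw [ae_all_iff]; intro n
    rw [ae_all_iff]; intro k
    exact ae_imp_of_ae_restrict (Besicovitch.ae_tendsto_measure_inter_div μ (T n k))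
  filter_upwards [h1, h2] with x hx1 hx2
  rintro ⟨C, δ, hδ, hC⟩
  obtain ⟨n, hn⟩ := exists_nat_ge (max C (1 / δ))
  have hnC : C ≤ n := (le_max_left _ _).trans hn
  have hnδ : 1 / δ ≤ n := (le_max_right _ _).trans hn
  have hnδ' : 1 / ((n : ℝ) + 1) ≤ δ := by
    rw [div_le_iff₀ (by positivity)]
    rw [div_le_iff₀ hδ] at hnδ
    nlinarith
  have hxS : x ∈ S n := by
    intro y hy
    refine (hC y (lt_of_lt_of_le hy hnδ')).trans ?_
    gcongr
  have hpos : (0 : ℝ) < 1 / ((n : ℝ) + 1) / 2 := by positivity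
  obtain ⟨k, hk⟩ := (TopologicalSpace.denseRange_denseSeq E).exists_dist_lt x hpos
  have hxT : x ∈ T n k := ⟨hxS, mem_ball.2 hk⟩
  have hnonneg : (0 : ℝ) ≤ n := Nat.cast_nonneg n
  have hpos' : (0 : ℝ) < 1 / ((n : ℝ) + 1) := by positivity
  exact differentiableAt_of_density (μ := μ) hnonneg hpos' (fun z hz => hz.1) (hx2 n k hxT)
    (hx1 n k hxT)

/-- Local version of `ae_differentiableAt_of_ediam_pow_le`: on the interior of a closed ball. -/
theorem ae_differentiableAt_of_ediam_pow_le_aux [Nontrivial E] [FiniteDimensional ℝ F]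
    [MeasurableSpace F] [BorelSpace F] {ν : Measure F} [IsFiniteMeasureOnCompacts ν] {f : E → F}
    {x₀ : E} {δ : ℝ} (hf : ContinuousOn f (closedBall x₀ δ)) (hinj : InjOn f (closedBall x₀ δ))
    {H : ℝ≥0∞} (hH : H ≠ ⊤)
    (h : ∀ x ∈ ball x₀ δ, ∃ r₀ > 0, ∀ r, 0 < r → r < r₀ →
      Metric.ediam (f '' closedBall x r) ^ Module.finrank ℝ E ≤ H * ν (f '' closedBall x r)) :
    ∀ᵐ x ∂μ, x ∈ ball x₀ δ → DifferentiableAt ℝ f x := by
  set B := closedBall x₀ δ with hB
  have hBc : IsCompact B := isCompact_closedBall x₀ δ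
  have : CompactSpace B := isCompact_iff_compactSpace.1 hBc
  let g : B → F := fun b => f b
  have hg : Continuous g := continuousOn_iff_continuous_domRestrict.1 hf
  have hginj : Function.Injective g := fun a b hab => Subtype.ext (hinj a.2 b.2 hab)
  have hge : MeasurableEmbedding g := (hg.isClosedEmbedding hginj).measurableEmbedding
  let ρ : Measure E := (Measure.comap g ν).map Subtype.val
  have hρ : ∀ A : Set E, MeasurableSet A → ρ A = ν (f '' (A ∩ B)) := by
    intro A hA
    rw [Measure.map_apply measurable_subtype_coe hA, hge.comap_apply]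
    congr 1
    ext y
    constructor
    · rintro ⟨b, hb, rfl⟩
      exact ⟨b, ⟨hb, b.2⟩, rfl⟩
    · rintro ⟨x, ⟨hx, hxB⟩, rfl⟩
      exact ⟨⟨x, hxB⟩, hx, rfl⟩
  have : IsFiniteMeasure ρ := by
    refine ⟨?_⟩
    rw [hρ univ MeasurableSet.univ, univ_inter]
    exact (hBc.image_of_continuousOn hf).measure_lt_top
  have h1 := Besicovitch.ae_tendsto_rnDeriv ρ μ
  have h2 := Measure.rnDeriv_lt_top ρ μ
  filter_upwards [h1, h2, stepanov (μ := μ) f] with x hx1 hx2 hx3 hxb
  apply hx3
  -- choose a bound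
  obtain ⟨r₀, hr₀, hr₀'⟩ := h x hxb
  set d := Module.finrank ℝ E with hd
  have hd0 : d ≠ 0 := Module.finrank_pos.ne'
  set M : ℝ≥0∞ := ρ.rnDeriv μ x + 1 with hM
  have hMtop : M ≠ ⊤ := by
    rw [hM]; exact ENNReal.add_ne_top.2 ⟨hx2.ne, ENNReal.one_ne_top⟩
  have hlt : ρ.rnDeriv μ x < M := ENNReal.lt_add_right hx2.ne one_ne_zero
  obtain ⟨r₁, hr₁, hr₁'⟩ := (mem_nhdsGT_iff_exists_Ioo_subset' (show (0 : ℝ) < 1 from one_pos)).1
    (hx1.eventually (gt_mem_nhds hlt))
  set K : ℝ := max 1 (H * (M * μ (ball 0 1))).toReal with hK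
  have hK1 : 1 ≤ K := le_max_left _ _
  have htop : H * (M * μ (ball 0 1)) ≠ ⊤ :=
    ENNReal.mul_ne_top hH (ENNReal.mul_ne_top hMtop measure_ball_lt_top.ne)
  have hKd : H * (M * μ (ball 0 1)) ≤ ENNReal.ofReal (K ^ d) := by
    rw [← ENNReal.ofReal_toReal htop]
    apply ENNReal.ofReal_le_ofReal
    exact (le_max_right _ _).trans (le_self_pow₀ hK1 hd0)
  have hdist : 0 < δ - dist x x₀ := sub_pos.2 (mem_ball.1 hxb)
  refine ⟨K, min (min r₀ r₁) (δ - dist x x₀), by
    have : (0 : ℝ) < r₁ := hr₁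
    positivity, fun y hy => ?_⟩
  rw [lt_min_iff, lt_min_iff] at hy
  obtain ⟨⟨hy1, hy2⟩, hy3⟩ := hy
  rcases (dist_nonneg (x := y) (y := x)).eq_or_lt with h0 | h0
  · rw [eq_comm, dist_eq_zero] at h0
    simp [h0]
  set r := dist y x with hr
  have hsub : closedBall x r ⊆ B := by
    rw [hB]
    exact closedBall_subset_closedBall' (by linarith)
  have hρr : ρ (closedBall x r) = ν (f '' closedBall x r) := by
    rw [hρ _ isClosed_closedBall.measurableSet, inter_eq_left.2 hsub]
  have hbpos : μ (closedBall x r) ≠ 0 := (measure_closedBall_pos μ x h0).ne'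
  have hbtop : μ (closedBall x r) ≠ ⊤ := measure_closedBall_lt_top.ne
  have hνr : ν (f '' closedBall x r) ≤ M * μ (closedBall x r) := by
    have h3 : ρ (closedBall x r) / μ (closedBall x r) < M := hr₁' ⟨h0, hy2⟩
    rw [← hρr]
    rw [ENNReal.div_lt_iff (Or.inl hbpos) (Or.inl hbtop)] at h3
    exact h3.le
  have hdiam : Metric.ediam (f '' closedBall x r) ^ d ≤ ENNReal.ofReal (K * r) ^ d := by
    calc Metric.ediam (f '' closedBall x r) ^ d ≤ H * ν (f '' closedBall x r) := hr₀' r h0 hy1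
      _ ≤ H * (M * μ (closedBall x r)) := by gcongr
      _ = H * (M * μ (ball 0 1)) * ENNReal.ofReal (r ^ d) := by
          rw [Measure.addHaar_closedBall μ x h0.le]; ring
      _ ≤ ENNReal.ofReal (K ^ d) * ENNReal.ofReal (r ^ d) := by gcongr
      _ = ENNReal.ofReal (K * r) ^ d := by
          rw [← ENNReal.ofReal_mul (by positivity), ← mul_pow, ENNReal.ofReal_pow (by positivity)]
  have hdiam' : Metric.ediam (f '' closedBall x r) ≤ ENNReal.ofReal (K * r) := by
    by_contra hcon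
    push Not at hcon
    exact absurd hdiam (not_le.2 (ENNReal.pow_lt_pow_left hd0 hcon))
  have hed : edist (f y) (f x) ≤ ENNReal.ofReal (K * r) :=
    (Metric.edist_le_ediam_of_mem (mem_image_of_mem f (mem_closedBall.2 le_rfl))
      (mem_image_of_mem f (mem_closedBall_self h0.le))).trans hdiam'
  rw [edist_dist, ENNReal.ofReal_le_ofReal_iff (by positivity)] at hed
  rwa [← dist_eq_norm, ← dist_eq_norm]

/-- An injective continuous map on an open set such that the images of small balls are fat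
(`diam ^ d ≤ H * volume`) is differentiable almost everywhere. -/
theorem ae_differentiableAt_of_ediam_pow_le [Nontrivial E] [FiniteDimensional ℝ F]
    [MeasurableSpace F] [BorelSpace F] {ν : Measure F} [IsFiniteMeasureOnCompacts ν] {f : E → F}
    {U : Set E} (hU : IsOpen U) (hf : ContinuousOn f U) (hinj : InjOn f U)
    {H : ℝ≥0∞} (hH : H ≠ ⊤)
    (h : ∀ x ∈ U, ∃ r₀ > 0, ∀ r, 0 < r → r < r₀ →
      Metric.ediam (f '' closedBall x r) ^ Module.finrank ℝ E ≤ H * ν (f '' closedBall x r)) :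
    ∀ᵐ x ∂μ, x ∈ U → DifferentiableAt ℝ f x := by
  have key : μ {x | ¬ (x ∈ U → DifferentiableAt ℝ f x)} = 0 := by
    refine measure_null_of_locally_null _ ?_
    intro x hx
    simp only [mem_ofPred_eq, not_forall] at hx
    obtain ⟨hxU, -⟩ := hx
    obtain ⟨δ, hδ, hδU⟩ := Metric.nhds_basis_closedBall.mem_iff.1 (hU.mem_nhds hxU)
    refine ⟨{y | ¬ (y ∈ ball x δ → DifferentiableAt ℝ f y)}, ?_, ?_⟩
    · filter_upwards [mem_nhdsWithin_of_mem_nhds (ball_mem_nhds x hδ), self_mem_nhdsWithin]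
        with y hy hy'
      simp only [not_forall] at hy' ⊢
      exact ⟨hy, hy'.2⟩
    · exact ae_differentiableAt_of_ediam_pow_le_aux (μ := μ) (ν := ν) (hf.mono hδU)
        (hinj.mono hδU) hH (fun y hy => h y (hδU (ball_subset_closedBall hy)))
  exact key

/-- The planar version used in Stage 2. -/
theorem ae_differentiableAt_complex {f : ℂ → ℂ} {U : Set ℂ} (hU : IsOpen U)
    (hf : ContinuousOn f U) (hinj : InjOn f U) {H : ℝ}
    (h : ∀ x ∈ U, ∃ r₀ > 0, ∀ r, 0 < r → r < r₀ →
      Metric.diam (f '' closedBall x r) ^ 2 ≤ H * (volume (f '' closedBall x r)).toReal) :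
    ∀ᵐ x : ℂ, x ∈ U → DifferentiableAt ℝ f x := by
  refine ae_differentiableAt_of_ediam_pow_le (μ := volume) (ν := volume) hU hf hinj
    (H := ENNReal.ofReal H) ENNReal.ofReal_ne_top ?_
  intro x hx
  obtain ⟨r₀, hr₀, hr₀'⟩ := h x hx
  obtain ⟨δ, hδ, hδU⟩ := Metric.nhds_basis_closedBall.mem_iff.1 (hU.mem_nhds hx)
  refine ⟨min r₀ δ, lt_min hr₀ hδ, fun r hr hr' => ?_⟩
  rw [lt_min_iff] at hr'
  have hsub : closedBall x r ⊆ U := (closedBall_subset_closedBall hr'.2.le).trans hδU
  have hcomp : IsCompact (f '' closedBall x r) :=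
    (isCompact_closedBall x r).image_of_continuousOn (hf.mono hsub)
  have hvol : volume (f '' closedBall x r) ≠ ⊤ := hcomp.measure_lt_top.ne
  have hdiam : Metric.ediam (f '' closedBall x r) ≠ ⊤ := hcomp.isBounded.ediam_ne_top
  have h1 := hr₀' r hr hr'.1
  rw [Complex.finrank_real_complex]
  have h2 : Metric.ediam (f '' closedBall x r) ^ 2
      = ENNReal.ofReal (Metric.diam (f '' closedBall x r) ^ 2) := by
    rw [ENNReal.ofReal_pow Metric.diam_nonneg, Metric.diam, ENNReal.ofReal_toReal hdiam]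
  rw [h2]
  calc ENNReal.ofReal (Metric.diam (f '' closedBall x r) ^ 2)
      ≤ ENNReal.ofReal (H * (volume (f '' closedBall x r)).toReal) :=
        ENNReal.ofReal_le_ofReal h1
    _ = ENNReal.ofReal H * volume (f '' closedBall x r) := by
        rw [ENNReal.ofReal_mul' ENNReal.toReal_nonneg, ENNReal.ofReal_toReal hvol]

end P198ST
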