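import Mathlib.Analysis.Calculus.FDeriv.Basic
import Mathlib.MeasureTheory.Measure.Lebesgue.VolumeOfBalls
import Mathlib.LinearAlgebra.Complex.FiniteDimensional
import Vale.Agent.P198.ST.Stepanov

/-!
# P198, Stage 2, block ST1 (helper221): the pointwise distortion inequality at points of
differentiability.
-/

open MeasureTheory Metric Set Filter Topology
open scoped ENNReal NNReal Pointwise

namespace P198ST

/-- If the images of small discs about `x` satisfy `diam ^ 2 ≤ H * area`, and `f` is differentiable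
at `x`, then `‖Df(x)‖ ^ 2 ≤ H * π * |det Df(x)|`. -/
theorem norm_fderiv_sq_le {f : ℂ → ℂ} {x : ℂ} {H : ℝ} (hH : 0 ≤ H)
    (hqc : ∀ᶠ r in 𝓝[>] (0 : ℝ), (Metric.diam (f '' closedBall x r)) ^ 2
      ≤ H * (volume (f '' closedBall x r)).toReal)
    (hd : DifferentiableAt ℝ f x) :
    ‖fderiv ℝ f x‖ ^ 2 ≤ H * (Real.pi * |(fderiv ℝ f x).det|) := by
  set T := fderiv ℝ f x with hT
  have hTd : HasFDerivAt f T x := hd.hasFDerivAt
  rw [hasFDerivAt_iff_isLittleO, Asymptotics.isLittleO_iff] at hTd
  set K : Set ℂ := T '' closedBall 0 1 with hK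
  have hKc : IsCompact K := (isCompact_closedBall 0 1).image T.continuous
  -- the main inequality for fixed `ε`
  have main : ∀ ε : ℝ, 0 < ε → ε < ‖T‖ →
      (‖T‖ - ε) ^ 2 ≤ H * (volume (cthickening ε K)).toReal := by
    intro ε hε hεT
    have h1 := hTd hε
    obtain ⟨δ, hδ, hδ'⟩ := Metric.eventually_nhds_iff_ball.1 h1
    obtain ⟨r, hr, hr0, hrδ⟩ : ∃ r : ℝ, (Metric.diam (f '' closedBall x r)) ^ 2
      ≤ H * (volume (f '' closedBall x r)).toReal ∧ 0 < r ∧ r < δ := by
      have := (hqc.and (Ioo_mem_nhdsGT hδ)).exists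
      obtain ⟨r, h1, h2⟩ := this
      exact ⟨r, h1, h2.1, h2.2⟩
    have happ : ∀ y ∈ closedBall x r, ‖f y - f x - T (y - x)‖ ≤ ε * r := by
      intro y hy
      refine (hδ' y (mem_ball.2 (lt_of_le_of_lt (mem_closedBall.1 hy) hrδ))).trans ?_
      rw [← dist_eq_norm y x]
      gcongr
      exact mem_closedBall.1 hy
    have hsub : f '' closedBall x r ⊆ (fun w => f x + w) '' (r • cthickening ε K) := by
      rintro _ ⟨y, hy, rfl⟩
      refine ⟨f y - f x, ?_, by simp⟩
      rw [mem_smul_set_iff_inv_smul_mem₀ hr0.ne']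
      refine mem_cthickening_of_dist_le _ (T (r⁻¹ • (y - x))) ε K ?_ ?_
      · refine mem_image_of_mem _ ?_
        rw [mem_closedBall_zero_iff, norm_smul, Real.norm_eq_abs, abs_of_pos (inv_pos.2 hr0),
          ← dist_eq_norm]
        rw [inv_mul_le_iff₀ hr0, mul_one]
        exact mem_closedBall.1 hy
      · rw [map_smul, dist_eq_norm, ← smul_sub, norm_smul, Real.norm_eq_abs,
          abs_of_pos (inv_pos.2 hr0), inv_mul_le_iff₀ hr0]
        linarith [happ y hy]
    have hcthc : IsCompact (cthickening ε K) := hKc.cthickening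
    have hbdd : Bornology.IsBounded (f '' closedBall x r) := by
      refine Bornology.IsBounded.subset ?_ hsub
      exact (((hcthc.smul r).image (continuous_const.add continuous_id))).isBounded
    have hvol : (volume (f '' closedBall x r)).toReal
        ≤ r ^ 2 * (volume (cthickening ε K)).toReal := by
      have h2 : volume ((fun w => f x + w) '' (r • cthickening ε K))
          = ENNReal.ofReal (r ^ 2) * volume (cthickening ε K) := by
        rw [Set.image_add_left, measure_preimage_add, Measure.addHaar_smul,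
          Complex.finrank_real_complex, abs_of_nonneg (by positivity)]
      have h3 : volume (f '' closedBall x r)
          ≤ ENNReal.ofReal (r ^ 2) * volume (cthickening ε K) := h2 ▸ measure_mono hsub
      have h4 := ENNReal.toReal_mono
        (ENNReal.mul_ne_top ENNReal.ofReal_ne_top hcthc.measure_lt_top.ne) h3
      rwa [ENNReal.toReal_mul, ENNReal.toReal_ofReal (by positivity)] at h4
    -- lower bound for the diameter
    set D := Metric.diam (f '' closedBall x r) with hD
    have hnorm : ‖T‖ ≤ D / r + ε := by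
      refine ContinuousLinearMap.opNorm_le_of_unit_norm
        (by have : 0 ≤ D := Metric.diam_nonneg
            positivity) fun u hu => ?_
      have hy : x + r • u ∈ closedBall x r := by
        rw [mem_closedBall, dist_eq_norm, add_sub_cancel_left, norm_smul, hu, mul_one,
          Real.norm_eq_abs, abs_of_pos hr0]
      have h5 := happ _ hy
      rw [add_sub_cancel_left, map_smul] at h5
      have h6 : ‖f (x + r • u) - f x‖ ≤ D := by
        rw [← dist_eq_norm]
        exact Metric.dist_le_diam_of_mem hbdd (mem_image_of_mem f hy)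
          (mem_image_of_mem f (mem_closedBall_self hr0.le))
      have h7 : ‖r • T u‖ ≤ D + ε * r := by
        have : r • T u = (f (x + r • u) - f x) - (f (x + r • u) - f x - r • T u) := by abel
        rw [this]
        exact (norm_sub_le _ _).trans (add_le_add h6 h5)
      rw [norm_smul, Real.norm_eq_abs, abs_of_pos hr0] at h7
      rw [← mul_le_mul_iff_right₀ hr0]
      calc r * ‖T u‖ ≤ D + ε * r := h7
        _ = r * (D / r + ε) := by field_simp
    have h8 : (‖T‖ - ε) * r ≤ D := by
      have : ‖T‖ - ε ≤ D / r := by linarith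
      rwa [le_div_iff₀ hr0] at this
    have h9 : ((‖T‖ - ε) * r) ^ 2 ≤ D ^ 2 :=
      pow_le_pow_left₀ (mul_nonneg (by linarith) hr0.le) h8 2
    have h10 : r ^ 2 * (‖T‖ - ε) ^ 2 ≤ r ^ 2 * (H * (volume (cthickening ε K)).toReal) := by
      calc r ^ 2 * (‖T‖ - ε) ^ 2 = ((‖T‖ - ε) * r) ^ 2 := by ring
        _ ≤ D ^ 2 := h9
        _ ≤ H * (volume (f '' closedBall x r)).toReal := hr
        _ ≤ H * (r ^ 2 * (volume (cthickening ε K)).toReal) := by gcongr
        _ = r ^ 2 * (H * (volume (cthickening ε K)).toReal) := by ring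
    exact le_of_mul_le_mul_left h10 (by positivity)
  -- volume of the limit
  have hvolK : (volume K).toReal = Real.pi * |T.det| := by
    rw [hK, Measure.addHaar_image_continuousLinearMap, Complex.volume_closedBall,
      ENNReal.toReal_mul, ENNReal.toReal_ofReal (abs_nonneg _)]
    simp [ContinuousLinearMap.det, mul_comm]
  rcases (norm_nonneg T).eq_or_lt with h0 | h0
  · rw [← h0]
    have : 0 ≤ Real.pi * |T.det| := by positivity
    simpa using mul_nonneg hH this
  have hlim1 : Tendsto (fun ε : ℝ => (‖T‖ - ε) ^ 2) (𝓝[>] 0) (𝓝 (‖T‖ ^ 2)) := by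
    have : Tendsto (fun ε : ℝ => (‖T‖ - ε) ^ 2) (𝓝 0) (𝓝 ((‖T‖ - 0) ^ 2)) :=
      (Continuous.tendsto (by fun_prop) 0)
    rw [sub_zero] at this
    exact this.mono_left nhdsWithin_le_nhds
  have hlim2 : Tendsto (fun ε : ℝ => H * (volume (cthickening ε K)).toReal) (𝓝[>] 0)
      (𝓝 (H * (volume K).toReal)) := by
    have h11 := tendsto_measure_cthickening_of_isCompact (μ := volume) hKc
    have h12 : Tendsto (fun ε : ℝ => (volume (cthickening ε K)).toReal) (𝓝 0)
        (𝓝 (volume K).toReal) :=
      (ENNReal.tendsto_toReal hKc.measure_lt_top.ne).comp h11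
    exact (h12.const_mul H).mono_left nhdsWithin_le_nhds
  rw [← hvolK]
  refine le_of_tendsto_of_tendsto hlim1 hlim2 ?_
  filter_upwards [Ioo_mem_nhdsGT h0] with ε hε
  exact main ε hε.1 hε.2

/-- ST1 for a partial homeomorphism, in the form used by the field construction. -/
theorem ae_differentiableAt_homeo (γ : OpenPartialHomeomorph ℂ ℂ) {H : ℝ} (hH : 0 ≤ H)
    (hqc : ∀ x ∈ γ.source, ∀ᶠ r in 𝓝[>] (0 : ℝ), (Metric.diam (γ '' closedBall x r)) ^ 2
      ≤ H * (volume (γ '' closedBall x r)).toReal) :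
    ∀ᵐ x : ℂ, x ∈ γ.source → DifferentiableAt ℝ γ x ∧
      ‖fderiv ℝ γ x‖ ^ 2 ≤ H * (Real.pi * |(fderiv ℝ γ x).det|) := by
  have h := ae_differentiableAt_complex (f := γ) γ.open_source γ.continuousOn γ.injOn (H := H)
    (fun x hx => by
      obtain ⟨r₀, hr₀, h⟩ := (mem_nhdsGT_iff_exists_Ioo_subset' (show (0 : ℝ) < 1 from one_pos)).1
        (hqc x hx)
      exact ⟨r₀, hr₀, fun r hr hr' => h ⟨hr, hr'⟩⟩)
  filter_upwards [h] with x hx hxs
  exact ⟨hx hxs, norm_fderiv_sq_le hH (hqc x hxs) (hx hxs)⟩

end P198ST
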