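import Vale.Agent.P198.ST.Energy
import Vale.Agent.P198.ST.DerivBound

/-!
# Existence of the invariant field (P198, block ST, assembly)
-/

set_option autoImplicit false

open MeasureTheory Set Filter Topology
open scoped ENNReal RealInnerProductSpace ContDiff

namespace P198ST

namespace PG

variable {G : Type*} [Group G] (P : PG G)

lemma qc_of_round {H : ℝ} (hH : 0 ≤ H)
    (hqc : ∀ g, ∀ x ∈ (P.γ g).source, ∀ᶠ r in 𝓝[>] (0 : ℝ),
      (Metric.diam (P.γ g '' Metric.closedBall x r)) ^ 2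
        ≤ H * (volume (P.γ g '' Metric.closedBall x r)).toReal) :
    P.QC (max (H * Real.pi) 1) := by
  intro g x hx hd
  have h1 := norm_fderiv_sq_le hH (hqc g x hx) hd
  refine h1.trans ?_
  rw [← mul_assoc]
  exact mul_le_mul_of_nonneg_right (le_max_left _ _) (abs_nonneg _)

theorem exists_field_of_round [Countable G] {H : ℝ} (hH : 0 ≤ H)
    (hqc : ∀ g, ∀ x ∈ (P.γ g).source, ∀ᶠ r in 𝓝[>] (0 : ℝ),
      (Metric.diam (P.γ g '' Metric.closedBall x r)) ^ 2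
        ≤ H * (volume (P.γ g '' Metric.closedBall x r)).toReal)
    (WGp : (ℂ → ℝ) → (ℂ → ℂ) → Prop)
    (hW : ∀ g, (∀ᵐ x, x ∈ (P.γ g).source → DifferentiableAt ℝ (P.γ g) x) →
      ∀ (φ : ℂ → ℝ), ContDiff ℝ ∞ φ → HasCompactSupport φ → tsupport φ ⊆ (P.γ g).target →
      WGp ((P.γ g).source.indicator (φ ∘ P.γ g))
        ((P.γ g).source.indicator (fun x => gradient (φ ∘ P.γ g) x))) :
    ∃ (c C : ℝ) (B : ℂ → ℂ →L[ℝ] ℂ), 0 < c ∧ Measurable B ∧
      (∀ x v w, (inner ℝ (B x v) w : ℝ) = inner ℝ v (B x w)) ∧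
      (∀ x v, c * ‖v‖ ^ 2 ≤ (inner ℝ (B x v) v : ℝ)) ∧ (∀ x, ‖B x‖ ≤ C) ∧
      ∀ g (φ : ℂ → ℝ), ContDiff ℝ ∞ φ → HasCompactSupport φ → tsupport φ ⊆ (P.γ g).target →
        ∃ w, WGp ((P.γ g).source.indicator (φ ∘ P.γ g)) w ∧
          ∫ x, (inner ℝ (B x (w x)) (w x) : ℝ)
            ≤ ∫ x, (inner ℝ (B x (gradient φ x)) (gradient φ x) : ℝ) := by
  have hd : ∀ g, ∀ᵐ x, x ∈ (P.γ g).source → DifferentiableAt ℝ (P.γ g) x := by
    intro g
    filter_upwards [ae_differentiableAt_homeo (P.γ g) hH (hqc g)] with x hx hxs using (hx hxs).1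
  exact P.exists_field_aux (P.qc_of_round hH hqc) (le_max_right _ _) hd WGp
    fun g => hW g (hd g)

end PG

end P198ST
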