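import Vale.Agent.P198.ST.Quot
import Vale.Agent.P198.C5.Weak

/-! The difference quotient estimate for `f ∘ γ`, `γ` locally satisfying
`(diam γ(B))² ≤ H area(γ(B))`; the chain rule for the weak gradient of `f ∘ γ`. -/

namespace P198ST

open MeasureTheory Filter Topology Metric Vale.Agent.P363.R.Sob P198C5
open scoped ContDiff ENNReal InnerProductSpace Gradient

noncomputable section

/-- locally uniform comparison of diameters and areas of images of discs -/
def LocH (γ : OpenPartialHomeomorph ℂ ℂ) (H : ℝ) : Prop :=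
  ∀ x₀ ∈ γ.source, ∃ r₀ > 0, ∀ x ∈ ball x₀ r₀, ∀ r, 0 < r → r ≤ r₀ →
    (diam (γ '' closedBall x r)) ^ 2 ≤ H * (volume (γ '' closedBall x r)).toReal

variable {γ : OpenPartialHomeomorph ℂ ℂ} {H : ℝ}

/-- uniformity on compact sets -/
theorem LocH.compact (h : LocH γ H) {K : Set ℂ} (hK : IsCompact K) (hs : K ⊆ γ.source) :
    ∃ δ > 0, cthickening (2 * δ) K ⊆ γ.source ∧ ∀ x ∈ cthickening δ K, ∀ r, 0 < r → r ≤ δ →
      (diam (γ '' closedBall x r)) ^ 2 ≤ H * (volume (γ '' closedBall x r)).toReal := by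
  obtain ⟨δ₀, hδ₀, h0⟩ := hK.exists_cthickening_subset_open γ.open_source hs
  set K' := cthickening (δ₀ / 2) K with hK'
  have hK'c : IsCompact K' := hK.cthickening
  have hK's : K' ⊆ γ.source := (cthickening_mono (by linarith) _).trans h0
  obtain ⟨δ₁, hδ₁, h1⟩ : ∃ δ > 0, ∀ x ∈ K', ∀ r, 0 < r → r ≤ δ →
      (diam (γ '' closedBall x r)) ^ 2 ≤ H * (volume (γ '' closedBall x r)).toReal := by
    refine hK'c.induction_on (p := fun s => ∃ δ > 0, ∀ x ∈ s, ∀ r, 0 < r → r ≤ δ →
      (diam (γ '' closedBall x r)) ^ 2 ≤ H * (volume (γ '' closedBall x r)).toReal) ?_ ?_ ?_ ?_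
    · exact ⟨1, one_pos, fun x hx => absurd hx (Set.notMem_empty x)⟩
    · rintro s t hst ⟨δ, hδ, h⟩
      exact ⟨δ, hδ, fun x hx => h x (hst hx)⟩
    · rintro s t ⟨δ, hδ, h⟩ ⟨δ', hδ', h'⟩
      refine ⟨min δ δ', lt_min hδ hδ', fun x hx r hr hr' => ?_⟩
      rcases hx with hx | hx
      · exact h x hx r hr (hr'.trans (min_le_left _ _))
      · exact h' x hx r hr (hr'.trans (min_le_right _ _))
    · intro x hx
      obtain ⟨r₀, hr₀, h2⟩ := h x (hK's hx)
      exact ⟨ball x r₀, mem_nhdsWithin_of_mem_nhds (ball_mem_nhds x hr₀), r₀, hr₀, h2⟩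
  refine ⟨min (δ₀ / 2) δ₁, by positivity, ?_, ?_⟩
  · refine (cthickening_mono ?_ _).trans h0
    have := min_le_left (δ₀ / 2) δ₁
    linarith
  · intro x hx r hr hr'
    exact h1 x (cthickening_mono (min_le_left _ _) _ hx) r hr (hr'.trans (min_le_right _ _))

/-- Tonelli: the integral of the areas of images of discs of radius `r` -/
theorem lintegral_volume_image_le {A B : Set ℂ} {r : ℝ} (hA : IsCompact A) (hB : IsCompact B)
    (hAB : ∀ x ∈ A, closedBall x r ⊆ B) (hBs : B ⊆ γ.source) :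
    ∫⁻ x in A, volume (γ '' closedBall x r) ≤ volume (closedBall (0 : ℂ) r) * volume (γ '' B) := by
  set T : Set (ℂ × ℂ) := {p | p.1 ∈ A ∧ dist p.2 p.1 ≤ r} with hT
  have hTc : IsCompact T := by
    refine (hA.prod hB).of_isClosed_subset ?_ ?_
    · exact (hA.isClosed.preimage continuous_fst).inter
        (isClosed_le (continuous_snd.dist continuous_fst) continuous_const)
    · rintro p ⟨h1, h2⟩
      exact ⟨h1, hAB _ h1 (mem_closedBall.2 h2)⟩
  set S : Set (ℂ × ℂ) := (fun p : ℂ × ℂ => (p.1, γ p.2)) '' T with hS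
  have hSc : IsCompact S := by
    refine hTc.image_of_continuousOn ?_
    refine continuousOn_fst.prodMk ?_
    refine γ.continuousOn.comp continuousOn_snd ?_
    rintro p ⟨h1, h2⟩
    exact hBs (hAB _ h1 (mem_closedBall.2 h2))
  have hSm : MeasurableSet S := hSc.isClosed.measurableSet
  have e1 : ∀ x, volume (Prod.mk x ⁻¹' S) = A.indicator (fun x => volume (γ '' closedBall x r)) x := by
    intro x
    by_cases hx : x ∈ A
    · rw [Set.indicator_of_mem hx]
      congr 1
      ext y
      constructor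
      · rintro ⟨p, ⟨h1, h2⟩, h3⟩
        simp only [Prod.mk.injEq] at h3
        obtain ⟨h4, h5⟩ := h3
        subst h4
        exact ⟨p.2, mem_closedBall.2 h2, h5⟩
      · rintro ⟨u, hu, rfl⟩
        exact ⟨(x, u), ⟨hx, mem_closedBall.1 hu⟩, rfl⟩
    · rw [Set.indicator_of_notMem hx]
      have : Prod.mk x ⁻¹' S = ∅ := by
        ext y
        simp only [Set.mem_preimage, Set.mem_empty_iff_false, iff_false]
        rintro ⟨p, ⟨h1, h2⟩, h3⟩
        simp only [Prod.mk.injEq] at h3
        exact hx (h3.1 ▸ h1)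
      rw [this, measure_empty]
  have e2 : (volume : Measure (ℂ × ℂ)) S = ∫⁻ x in A, volume (γ '' closedBall x r) := by
    rw [Measure.volume_eq_prod, Measure.prod_apply hSm]
    simp only [e1]
    rw [lintegral_indicator hA.isClosed.measurableSet]
  have e3 : ∀ y, volume ((fun x => (x, y)) ⁻¹' S) ≤
      (γ '' B).indicator (fun _ => volume (closedBall (0 : ℂ) r)) y := by
    intro y
    by_cases hy : y ∈ γ '' B
    · rw [Set.indicator_of_mem hy]
      have h6 : (fun x => (x, y)) ⁻¹' S ⊆ closedBall (γ.symm y) r := by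
        rintro x ⟨p, ⟨h1, h2⟩, h3⟩
        simp only [Prod.mk.injEq] at h3
        obtain ⟨h4, h5⟩ := h3
        subst h4
        have h7 : p.2 ∈ γ.source := hBs (hAB _ h1 (mem_closedBall.2 h2))
        rw [← h5, γ.left_inv h7, mem_closedBall, dist_comm]
        exact h2
      refine (measure_mono h6).trans (le_of_eq ?_)
      have := Measure.addHaar_closedBall_center (volume : Measure ℂ) (γ.symm y) r
      exact this
    · rw [Set.indicator_of_notMem hy]
      have : (fun x => (x, y)) ⁻¹' S = ∅ := by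
        ext x
        simp only [Set.mem_preimage, Set.mem_empty_iff_false, iff_false]
        rintro ⟨p, ⟨h1, h2⟩, h3⟩
        simp only [Prod.mk.injEq] at h3
        exact hy ⟨p.2, hAB _ h1 (mem_closedBall.2 h2), h3.2⟩
      rw [this, measure_empty]
  have hBm : MeasurableSet (γ '' B) :=
    (hB.image_of_continuousOn (γ.continuousOn.mono hBs)).isClosed.measurableSet
  rw [← e2, Measure.volume_eq_prod, Measure.prod_apply_symm hSm]
  refine (lintegral_mono e3).trans ?_
  rw [lintegral_indicator hBm, setLIntegral_const]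

/-- the difference quotient estimate -/
theorem quot_bound (hH : LocH γ H) {f : ℂ → ℝ} (hf : Test f) (hs : tsupport f ⊆ γ.target) :
    ∃ M, ∀ᶠ h in 𝓝[≠] (0 : ℂ), ∫ x, (tr γ f (x + h) - tr γ f x) ^ 2 ≤ M * ‖h‖ ^ 2 := by
  have hcc : CC γ.target f := cc_of_test hf hs
  set w := tr γ f with hw
  have hwc : CC γ.source w := hcc.tr
  set K := γ.symm '' tsupport f with hK
  have hKc : IsCompact K := hcc.isCompact_image
  have hKs : K ⊆ γ.source := hcc.image_subset
  obtain ⟨δ, hδ, h1, h2⟩ := hH.compact hKc hKs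
  obtain ⟨L, hL⟩ := (hf.1.of_le (m := 1) (by simp)).lipschitzWith_of_hasCompactSupport hf.2
    (by simp)
  set A := cthickening δ K with hA
  set B := cthickening (2 * δ) K with hB
  have hAc : IsCompact A := hKc.cthickening
  have hBc : IsCompact B := hKc.cthickening
  have hAB : ∀ r ≤ δ, ∀ x ∈ A, closedBall x r ⊆ B := by
    intro r hr x hx y hy
    have h3 : y ∈ cthickening δ A := by
      refine mem_cthickening_of_dist_le y x δ A hx ((mem_closedBall.1 hy).trans hr)
    have h4 := cthickening_cthickening_subset hδ.le hδ.le K h3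
    rwa [← two_mul] at h4
  have hAs : A ⊆ γ.source := fun x hx => h1 (hAB 0 hδ.le x hx (mem_closedBall_self le_rfl))
  have hγB : volume (γ '' B) < ⊤ := (hBc.image_of_continuousOn (γ.continuousOn.mono h1)).measure_lt_top
  have hH0 : ∃ H' : ℝ, 0 ≤ H' ∧ H ≤ H' := ⟨max H 0, le_max_right _ _, le_max_left _ _⟩
  obtain ⟨H', hH'0, hHH'⟩ := hH0
  refine ⟨L ^ 2 * H' * (Real.pi * (volume (γ '' B)).toReal), ?_⟩
  have hev : ∀ᶠ h in 𝓝[≠] (0 : ℂ), h ≠ 0 ∧ ‖h‖ ≤ δ := by
    refine Eventually.and self_mem_nhdsWithin (mem_nhdsWithin_of_mem_nhds ?_)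
    filter_upwards [closedBall_mem_nhds (0 : ℂ) hδ] with h hh
    simpa using hh
  filter_upwards [hev] with h ⟨hh0, hhδ⟩
  have hr0 : 0 < ‖h‖ := norm_pos_iff.2 hh0
  -- pointwise bound
  have hpt : ∀ x, (w (x + h) - w x) ^ 2 ≤
      A.indicator (fun x => L ^ 2 * H' * (volume (γ '' closedBall x ‖h‖)).toReal) x := by
    intro x
    by_cases hx : x ∈ A
    · rw [Set.indicator_of_mem hx]
      have hb := hAB _ hhδ x hx
      have m1 : x ∈ closedBall x ‖h‖ := mem_closedBall_self hr0.le
      have m2 : x + h ∈ closedBall x ‖h‖ := by simp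
      have hxs : x ∈ γ.source := h1 (hb m1)
      have hxs' : x + h ∈ γ.source := h1 (hb m2)
      rw [hw, tr_mem hxs, tr_mem hxs']
      have hbd : Bornology.IsBounded (γ '' closedBall x ‖h‖) :=
        ((isCompact_closedBall x ‖h‖).image_of_continuousOn
          (γ.continuousOn.mono (hb.trans h1))).isBounded
      have d1 : dist (γ (x + h)) (γ x) ≤ diam (γ '' closedBall x ‖h‖) :=
        dist_le_diam_of_mem hbd ⟨_, m2, rfl⟩ ⟨_, m1, rfl⟩
      have d2 := hL.dist_le_mul (γ (x + h)) (γ x)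
      rw [Real.dist_eq] at d2
      have d3 := h2 x hx ‖h‖ hr0 hhδ
      have d4 : |f (γ (x + h)) - f (γ x)| ≤ L * diam (γ '' closedBall x ‖h‖) :=
        d2.trans (by gcongr)
      calc (f (γ (x + h)) - f (γ x)) ^ 2 = |f (γ (x + h)) - f (γ x)| ^ 2 := (sq_abs _).symm
        _ ≤ (L * diam (γ '' closedBall x ‖h‖)) ^ 2 := by gcongr
        _ = L ^ 2 * diam (γ '' closedBall x ‖h‖) ^ 2 := by ring
        _ ≤ L ^ 2 * (H * (volume (γ '' closedBall x ‖h‖)).toReal) := by gcongr
        _ ≤ L ^ 2 * (H' * (volume (γ '' closedBall x ‖h‖)).toReal) := by gcongr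
        _ = L ^ 2 * H' * (volume (γ '' closedBall x ‖h‖)).toReal := by ring
    · rw [Set.indicator_of_notMem hx]
      have hx1 : x ∉ K := fun h => hx (self_subset_cthickening _ h)
      have hx2 : x + h ∉ K := by
        intro hk
        refine hx (mem_cthickening_of_dist_le x (x + h) δ K hk ?_)
        simpa [dist_eq_norm] using hhδ
      rw [hw, hcc.tr_zero_of_notMem hx1, hcc.tr_zero_of_notMem hx2]
      simp
  -- integrate
  have hAm : MeasurableSet A := hAc.isClosed.measurableSet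
  have hlin := lintegral_volume_image_le hAc hBc (hAB _ hhδ) h1
  have hfin : ∀ x ∈ A, volume (γ '' closedBall x ‖h‖) < ⊤ := fun x hx =>
    ((isCompact_closedBall x ‖h‖).image_of_continuousOn
      (γ.continuousOn.mono ((hAB _ hhδ x hx).trans h1))).measure_lt_top
  set c : ℝ := L ^ 2 * H' with hc
  have hc0 : 0 ≤ c := by positivity
  have hwcont : Continuous w := hwc.cont
  have hm : AEStronglyMeasurable (fun x => (w (x + h) - w x) ^ 2) volume := by
    refine Continuous.aestronglyMeasurable ?_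
    fun_prop
  rw [integral_eq_lintegral_of_nonneg_ae (Eventually.of_forall fun x => sq_nonneg _) hm]
  have hle : ∫⁻ x, ENNReal.ofReal ((w (x + h) - w x) ^ 2) ≤
      ENNReal.ofReal c * (volume (closedBall (0 : ℂ) ‖h‖) * volume (γ '' B)) := by
    calc ∫⁻ x, ENNReal.ofReal ((w (x + h) - w x) ^ 2)
        ≤ ∫⁻ x, A.indicator (fun x => ENNReal.ofReal c * volume (γ '' closedBall x ‖h‖)) x := by
          refine lintegral_mono fun x => ?_
          have h3 := hpt x
          by_cases hx : x ∈ A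
          · rw [Set.indicator_of_mem hx] at h3 ⊢
            refine (ENNReal.ofReal_le_ofReal h3).trans ?_
            rw [ENNReal.ofReal_mul hc0, ENNReal.ofReal_toReal (hfin x hx).ne]
          · rw [Set.indicator_of_notMem hx] at h3 ⊢
            rw [ENNReal.ofReal_of_nonpos h3]
      _ = ENNReal.ofReal c * ∫⁻ x in A, volume (γ '' closedBall x ‖h‖) := by
          rw [lintegral_indicator hAm, lintegral_const_mul' _ _ ENNReal.ofReal_ne_top]
      _ ≤ _ := by gcongr
  have hval : (ENNReal.ofReal c * (volume (closedBall (0 : ℂ) ‖h‖) * volume (γ '' B))).toReal =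
      c * (Real.pi * (volume (γ '' B)).toReal) * ‖h‖ ^ 2 := by
    rw [Complex.volume_closedBall, ENNReal.toReal_mul, ENNReal.toReal_mul, ENNReal.toReal_mul,
      ENNReal.toReal_ofReal hc0, ENNReal.toReal_pow, ENNReal.toReal_ofReal (norm_nonneg _)]
    simp only [ENNReal.coe_toReal, NNReal.coe_real_pi]
    ring
  rw [← hval]
  refine ENNReal.toReal_mono ?_ hle
  refine ENNReal.mul_ne_top ENNReal.ofReal_ne_top (ENNReal.mul_ne_top ?_ hγB.ne)
  exact measure_closedBall_lt_top.ne

/-- `f ∘ γ` is differentiable almost everywhere, with the chain rule -/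
theorem ae_tr (hd : ∀ᵐ x, x ∈ γ.source → DifferentiableAt ℝ γ x) {f : ℂ → ℝ} (hf : Test f)
    (hs : tsupport f ⊆ γ.target) : ∀ᵐ x, DifferentiableAt ℝ (tr γ f) x ∧ (x ∈ γ.source →
      ∀ v, (inner ℝ (∇ (tr γ f) x) v : ℝ) = fderiv ℝ f (γ x) (fderiv ℝ γ x v)) := by
  have hcc : CC γ.target f := cc_of_test hf hs
  filter_upwards [hd] with x hx
  by_cases hxs : x ∈ γ.source
  · have h1 : HasFDerivAt (f ∘ γ) ((fderiv ℝ f (γ x)).comp (fderiv ℝ γ x)) x :=
      ((hf.differentiable (γ x)).hasFDerivAt).comp x (hx hxs).hasFDerivAt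
    have h2 : tr γ f =ᶠ[𝓝 x] f ∘ γ := by
      filter_upwards [γ.open_source.mem_nhds hxs] with y hy
      exact tr_mem hy
    have h3 : HasFDerivAt (tr γ f) ((fderiv ℝ f (γ x)).comp (fderiv ℝ γ x)) x :=
      h1.congr_of_eventuallyEq h2
    refine ⟨h3.differentiableAt, fun _ v => ?_⟩
    rw [gradient, InnerProductSpace.toDual_symm_apply, h3.fderiv]
    rfl
  · refine ⟨?_, fun h => absurd h hxs⟩
    have hK : (γ.symm '' tsupport f)ᶜ ∈ 𝓝 x :=
      hcc.isCompact_image.isClosed.isOpen_compl.mem_nhds fun hx' => hxs (hcc.image_subset hx')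
    have h2 : tr γ f =ᶠ[𝓝 x] fun _ => 0 := by
      filter_upwards [hK] with y hy
      exact hcc.tr_zero_of_notMem hy
    exact ((hasFDerivAt_const (0 : ℝ) x).congr_of_eventuallyEq h2).differentiableAt

/-- **output of ST2**: the pointwise gradient of `f ∘ γ` is its weak gradient -/
theorem wg_tr (hH : LocH γ H) (hd : ∀ᵐ x, x ∈ γ.source → DifferentiableAt ℝ γ x) {f : ℂ → ℝ}
    (hf : Test f) (hs : tsupport f ⊆ γ.target) : WG (tr γ f) (∇ (tr γ f)) := by
  have hcc : CC γ.source (tr γ f) := (cc_of_test hf hs).tr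
  obtain ⟨M, hM⟩ := quot_bound hH hf hs
  refine wg_gradient_of_quot hcc.cont hcc.supp hM ?_
  filter_upwards [ae_tr hd hf hs] with x hx using hx.1

end

end P198ST
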