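import Vale.Agent.P198.ST.Field2

/-!
# The energy inequality for the invariant field (P198, block ST)
-/

set_option autoImplicit false

open MeasureTheory Set Filter Topology
open scoped ENNReal RealInnerProductSpace ContDiff

namespace P198ST

lemma inner_grad (f : ℂ → ℝ) (x v : ℂ) : (inner ℝ (gradient f x) v : ℝ) = fderiv ℝ f x v := by
  rw [gradient]
  exact InnerProductSpace.toDual_symm_apply

lemma continuous_grad {φ : ℂ → ℝ} (hφ : ContDiff ℝ 1 φ) : Continuous (gradient φ) :=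
  (InnerProductSpace.toDual ℝ ℂ).symm.continuous.comp (hφ.continuous_fderiv one_ne_zero)

lemma hasCompactSupport_grad {φ : ℂ → ℝ} (hφ : HasCompactSupport φ) :
    HasCompactSupport (gradient φ) := by
  have := hφ.fderiv (𝕜 := ℝ)
  exact this.comp_left (map_zero (InnerProductSpace.toDual ℝ ℂ).symm)

namespace PG

variable {G : Type*} [Group G] (P : PG G)

lemma integrable_quad [Countable G] {φ : ℂ → ℝ} (hφ : ContDiff ℝ 1 φ) (hc : HasCompactSupport φ) :
    Integrable (fun y => (inner ℝ (P.B y (gradient φ y)) (gradient φ y) : ℝ)) := by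
  have hg := continuous_grad hφ
  have hgc := hasCompactSupport_grad hc
  have hz : (fun z : ℂ => ‖z‖ ^ 2) 0 = 0 := by
    show ‖(0 : ℂ)‖ ^ 2 = 0
    rw [norm_zero]; norm_num
  have hcs2 : HasCompactSupport ((fun z : ℂ => ‖z‖ ^ 2) ∘ gradient φ) := hgc.comp_left hz
  have h1 : Integrable (fun y => ‖gradient φ y‖ ^ 2) :=
    (hg.norm.pow 2).integrable_of_hasCompactSupport hcs2
  have hm : Measurable fun y => P.B y (gradient φ y) :=
    isBoundedBilinearMap_apply.continuous.measurable.comp (P.measurable_B.prodMk hg.measurable)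
  refine Integrable.mono' (h1.const_mul ((volume (Metric.closedBall (0 : ℂ) 1)).toReal))
    (hm.inner hg.measurable).aestronglyMeasurable (Eventually.of_forall fun y => ?_)
  rw [Real.norm_eq_abs]
  refine (abs_real_inner_le_norm _ _).trans ?_
  have h2 : ‖P.B y (gradient φ y)‖ ≤ ‖P.B y‖ * ‖gradient φ y‖ := (P.B y).le_opNorm _
  have h3 := P.norm_B_le y
  calc ‖P.B y (gradient φ y)‖ * ‖gradient φ y‖
      ≤ (‖P.B y‖ * ‖gradient φ y‖) * ‖gradient φ y‖ := by gcongr
    _ = ‖P.B y‖ * ‖gradient φ y‖ ^ 2 := by ring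
    _ ≤ (volume (Metric.closedBall (0 : ℂ) 1)).toReal * ‖gradient φ y‖ ^ 2 := by gcongr

/-- **Energy inequality** (area formula; no Lusin condition is needed). -/
theorem energy_le [Countable G] {H : ℝ} (hH : P.QC H) (g : G)
    (hd : ∀ᵐ x, x ∈ (P.γ g).source → DifferentiableAt ℝ (P.γ g) x)
    {φ : ℂ → ℝ} (hφ : ContDiff ℝ 1 φ) (hc : HasCompactSupport φ) :
    ∫ x, (inner ℝ (P.B x ((P.γ g).source.indicator (fun x => gradient (φ ∘ P.γ g) x) x))
        ((P.γ g).source.indicator (fun x => gradient (φ ∘ P.γ g) x) x) : ℝ)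
      ≤ ∫ x, (inner ℝ (P.B x (gradient φ x)) (gradient φ x) : ℝ) := by
  set w : ℂ → ℂ := (P.γ g).source.indicator (fun x => gradient (φ ∘ P.γ g) x) with hw
  have hcomp : ∀ x ∈ (P.γ g).source, DifferentiableAt ℝ (P.γ g) x → ∀ v,
      (inner ℝ v (w x) : ℝ) = inner ℝ (P.T g x v) (gradient φ (P.γ g x)) := by
    intro x hx hdx v
    have h1 : w x = gradient (φ ∘ P.γ g) x := indicator_of_mem hx _
    have hφd : DifferentiableAt ℝ φ (P.γ g x) := (hφ.differentiable one_ne_zero) _
    rw [h1, real_inner_comm, inner_grad, real_inner_comm, inner_grad,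
      fderiv_comp x hφd hdx]
    rfl
  have hae : ∀ᵐ x, (inner ℝ (P.B x (w x)) (w x) : ℝ) = (P.Reg g).indicator
      (fun x => |(P.T g x).det| • (inner ℝ (P.B (P.γ g x) (gradient φ (P.γ g x)))
        (gradient φ (P.γ g x)) : ℝ)) x := by
    filter_upwards [hd] with x hx
    by_cases hreg : x ∈ P.Reg g
    · rw [indicator_of_mem hreg, smul_eq_mul]
      exact P.quad_equiv hreg _ _ (hcomp x hreg.1 hreg.2.1)
    · rw [indicator_of_notMem hreg]
      by_cases hs : x ∈ (P.γ g).source
      · have hdx := hx hs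
        have hdet : (P.T g x).det = 0 := by
          by_contra h
          exact hreg ⟨hs, hdx, h⟩
        have hT : P.T g x = 0 := by
          have := hH g x hs hdx
          rw [hdet, abs_zero, mul_zero] at this
          have h2 : ‖P.T g x‖ = 0 := by nlinarith [norm_nonneg (P.T g x)]
          exact norm_eq_zero.1 h2
        have hw0 : w x = 0 := by
          have h3 := hcomp x hs hdx (w x)
          rw [hT] at h3
          simpa using h3
        rw [hw0]; simp
      · have hw0 : w x = 0 := indicator_of_notMem hs _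
        rw [hw0]; simp
  rw [integral_congr_ae hae, integral_indicator (P.measurableSet_Reg g)]
  have hinj : InjOn (P.γ g) (P.Reg g) := (P.γ g).injOn.mono fun x hx => hx.1
  have hder : ∀ x ∈ P.Reg g, HasFDerivWithinAt (P.γ g) (P.T g x) (P.Reg g) x := fun x hx =>
    hx.2.1.hasFDerivAt.hasFDerivWithinAt
  rw [← integral_image_eq_integral_abs_det_fderiv_smul volume (P.measurableSet_Reg g) hder hinj
    (fun y => (inner ℝ (P.B y (gradient φ y)) (gradient φ y) : ℝ))]
  exact setIntegral_le_integral (P.integrable_quad hφ hc)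
    (Eventually.of_forall fun y => P.B_nonneg y _)

/-- The invariant field, in the form used by the zoom block (C4). `WGp u w` is the weak gradient
predicate, passed as a parameter. -/
theorem exists_field_aux [Countable G] {H : ℝ} (hH : P.QC H) (hH1 : 1 ≤ H)
    (hd : ∀ g, ∀ᵐ x, x ∈ (P.γ g).source → DifferentiableAt ℝ (P.γ g) x)
    (WGp : (ℂ → ℝ) → (ℂ → ℂ) → Prop)
    (hW : ∀ g (φ : ℂ → ℝ), ContDiff ℝ ∞ φ → HasCompactSupport φ → tsupport φ ⊆ (P.γ g).target →
      WGp ((P.γ g).source.indicator (φ ∘ P.γ g))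
        ((P.γ g).source.indicator (fun x => gradient (φ ∘ P.γ g) x))) :
    ∃ (c C : ℝ) (B : ℂ → ℂ →L[ℝ] ℂ), 0 < c ∧ Measurable B ∧
      (∀ x v w, (inner ℝ (B x v) w : ℝ) = inner ℝ v (B x w)) ∧
      (∀ x v, c * ‖v‖ ^ 2 ≤ (inner ℝ (B x v) v : ℝ)) ∧ (∀ x, ‖B x‖ ≤ C) ∧
      ∀ g (φ : ℂ → ℝ), ContDiff ℝ ∞ φ → HasCompactSupport φ → tsupport φ ⊆ (P.γ g).target →
        ∃ w, WGp ((P.γ g).source.indicator (φ ∘ P.γ g)) w ∧
          ∫ x, (inner ℝ (B x (w x)) (w x) : ℝ)
            ≤ ∫ x, (inner ℝ (B x (gradient φ x)) (gradient φ x) : ℝ) := by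
  obtain ⟨c, hc, hlow⟩ := P.exists_lower hH hH1
  refine ⟨c, _, P.B, hc, P.measurable_B, P.B_symm, hlow, P.norm_B_le, ?_⟩
  intro g φ hφ hcs hts
  exact ⟨_, hW g φ hφ hcs hts, P.energy_le hH g (hd g) (hφ.of_le (by exact_mod_cast le_top)) hcs⟩

end PG

end P198ST
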