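import Vale.Agent.P198.ST.Field

/-!
# The second moment field: ellipticity, measurability, equivariance (P198, block ST)
-/

set_option autoImplicit false

open MeasureTheory Set Filter Topology
open scoped ENNReal RealInnerProductSpace

namespace P198ST

/-- the rank one operator `v ⊗ v` -/
noncomputable def rk (v : ℂ) : ℂ →L[ℝ] ℂ := (innerSL ℝ v).smulRight v

lemma rk_apply (v w : ℂ) : rk v w = (inner ℝ v w) • v := rfl

lemma continuous_rk : Continuous rk := by
  have h : rk = fun v => ContinuousLinearMap.smulRightL ℝ ℂ ℂ (innerSL ℝ v) v := by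
    funext v
    apply ContinuousLinearMap.ext
    intro w
    rfl
  rw [h]
  fun_prop

lemma norm_rk_le (v : ℂ) : ‖rk v‖ ≤ ‖v‖ ^ 2 := by
  refine ContinuousLinearMap.opNorm_le_bound _ (by positivity) fun w => ?_
  rw [rk_apply, norm_smul, pow_two]
  have := abs_real_inner_le_norm v w
  rw [Real.norm_eq_abs]
  nlinarith [norm_nonneg v, norm_nonneg w]

namespace PG

variable {G : Type*} [Group G] (P : PG G)

lemma B_def (x : ℂ) : P.B x = ∫ v in P.K x, rk v := rfl

lemma isClosed_K (x : ℂ) : IsClosed (P.K x) := by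
  have : P.K x = {v : ℂ | ‖v‖ ≤ 1} ∩ ⋂ g : G, ⋂ _ : x ∈ P.Reg g,
      {v : ℂ | ‖P.T g x v‖ ^ 2 ≤ |(P.T g x).det|} := by
    ext v; simp [K]
  rw [this]
  refine (isClosed_le (by fun_prop) (by fun_prop)).inter ?_
  refine isClosed_iInter fun g => isClosed_iInter fun _ => ?_
  exact isClosed_le (by fun_prop) (by fun_prop)

lemma isCompact_K (x : ℂ) : IsCompact (P.K x) :=
  (isCompact_closedBall (0 : ℂ) 1).of_isClosed_subset (P.isClosed_K x) (P.K_subset x)

lemma measurableSet_K (x : ℂ) : MeasurableSet (P.K x) := (P.isClosed_K x).measurableSet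

lemma integrableOn_of_cont {E : Type*} [NormedAddCommGroup E] {F : ℂ → E} (hF : Continuous F)
    (x : ℂ) : IntegrableOn F (P.K x) :=
  hF.continuousOn.integrableOn_compact (P.isCompact_K x)

lemma B_apply (x η : ℂ) : P.B x η = ∫ v in P.K x, (inner ℝ v η : ℝ) • v := by
  rw [B_def, ContinuousLinearMap.integral_apply (P.integrableOn_of_cont continuous_rk x)]
  rfl

lemma inner_B (x η ζ : ℂ) :
    inner ℝ (P.B x η) ζ = ∫ v in P.K x, (inner ℝ v η : ℝ) * (inner ℝ v ζ : ℝ) := by
  rw [B_apply, real_inner_comm, ← integral_inner]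
  · refine integral_congr_ae (Eventually.of_forall fun v => ?_)
    simp only [inner_smul_right]
    rw [real_inner_comm v ζ]
  · exact P.integrableOn_of_cont (by fun_prop) x

lemma B_symm (x v w : ℂ) : inner ℝ (P.B x v) w = inner ℝ v (P.B x w) := by
  rw [real_inner_comm (P.B x w) v, P.inner_B, P.inner_B]
  refine integral_congr_ae (Eventually.of_forall fun u => ?_)
  exact mul_comm _ _

lemma B_quad (x η : ℂ) : inner ℝ (P.B x η) η = ∫ v in P.K x, (inner ℝ v η : ℝ) ^ 2 := by
  rw [P.inner_B]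
  refine integral_congr_ae (Eventually.of_forall fun u => ?_)
  exact (pow_two _).symm

lemma B_nonneg (x η : ℂ) : 0 ≤ (inner ℝ (P.B x η) η : ℝ) := by
  rw [P.B_quad]
  exact integral_nonneg fun v => sq_nonneg _

lemma norm_B_le (x : ℂ) : ‖P.B x‖ ≤ (volume (Metric.closedBall (0 : ℂ) 1)).toReal := by
  rw [B_def]
  have h1 : ‖∫ v in P.K x, rk v‖ ≤ 1 * (volume.real (P.K x)) := by
    refine norm_setIntegral_le_of_norm_le_const (P.isCompact_K x).measure_lt_top ?_
    intro v hv
    refine (norm_rk_le v).trans ?_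
    have := hv.1
    nlinarith [norm_nonneg v]
  refine h1.trans ?_
  rw [one_mul]
  exact measureReal_mono (P.K_subset x) (measure_closedBall_lt_top).ne

/-- quasiconformality at the points of differentiability -/
def QC (H : ℝ) : Prop :=
  ∀ g x, x ∈ (P.γ g).source → DifferentiableAt ℝ (P.γ g) x →
    ‖P.T g x‖ ^ 2 ≤ H * |(P.T g x).det|

lemma ball_subset_K {H : ℝ} (hH : P.QC H) (hH1 : 1 ≤ H) (x : ℂ) :
    Metric.closedBall (0 : ℂ) (Real.sqrt H)⁻¹ ⊆ P.K x := by
  intro v hv
  have hv' : ‖v‖ ≤ (Real.sqrt H)⁻¹ := by simpa using hv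
  have hs : 1 ≤ Real.sqrt H := by rw [Real.one_le_sqrt]; exact hH1
  have hpos : 0 < H := by linarith
  refine ⟨hv'.trans (inv_le_one_of_one_le₀ hs), ?_⟩
  intro g hg
  have h1 := hH g x hg.1 hg.2.1
  have h2 : ‖P.T g x v‖ ≤ ‖P.T g x‖ * ‖v‖ := (P.T g x).le_opNorm v
  have h3 : ‖v‖ ^ 2 ≤ H⁻¹ := by
    have : ‖v‖ ^ 2 ≤ ((Real.sqrt H)⁻¹) ^ 2 := by
      exact pow_le_pow_left₀ (norm_nonneg _) hv' 2
    rwa [inv_pow, Real.sq_sqrt hpos.le] at this
  calc ‖P.T g x v‖ ^ 2 ≤ (‖P.T g x‖ * ‖v‖) ^ 2 := pow_le_pow_left₀ (norm_nonneg _) h2 2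
    _ = ‖P.T g x‖ ^ 2 * ‖v‖ ^ 2 := by ring
    _ ≤ (H * |(P.T g x).det|) * H⁻¹ := by
        apply mul_le_mul h1 h3 (by positivity) (by positivity)
    _ = |(P.T g x).det| := by field_simp

/-- **Ellipticity.** -/
lemma exists_lower {H : ℝ} (hH : P.QC H) (hH1 : 1 ≤ H) :
    ∃ c : ℝ, 0 < c ∧ ∀ x η : ℂ, c * ‖η‖ ^ 2 ≤ (inner ℝ (P.B x η) η : ℝ) := by
  set r : ℝ := (Real.sqrt H)⁻¹ with hr
  have hpos : 0 < H := by linarith
  have hrpos : 0 < r := by rw [hr]; positivity
  refine ⟨(r / 4) ^ 2 * (volume (Metric.closedBall (0 : ℂ) (r / 4))).toReal, ?_, ?_⟩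
  · refine mul_pos (by positivity) ?_
    exact ENNReal.toReal_pos (Metric.measure_closedBall_pos volume _ (by positivity)).ne'
      (measure_closedBall_lt_top).ne
  · intro x η
    rcases eq_or_ne η 0 with rfl | hη
    · simp
    have hηpos : 0 < ‖η‖ := norm_pos_iff.2 hη
    rw [P.B_quad]
    set a : ℂ := ((r / 2) * ‖η‖⁻¹ : ℝ) • η with ha
    have hna : ‖a‖ = r / 2 := by
      rw [ha, norm_smul, Real.norm_of_nonneg (by positivity)]
      field_simp
    have hsub : Metric.closedBall a (r / 4) ⊆ P.K x := by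
      refine Subset.trans ?_ (P.ball_subset_K hH hH1 x)
      intro v hv
      rw [Metric.mem_closedBall, dist_eq_norm] at hv
      rw [mem_closedBall_zero_iff, ← hr]
      calc ‖v‖ = ‖(v - a) + a‖ := by ring_nf
        _ ≤ ‖v - a‖ + ‖a‖ := norm_add_le _ _
        _ ≤ r / 4 + r / 2 := by rw [hna]; linarith
        _ ≤ r := by linarith
    have hlow : ∀ v ∈ Metric.closedBall a (r / 4), (r / 4) ^ 2 * ‖η‖ ^ 2 ≤ (inner ℝ v η : ℝ) ^ 2 := by
      intro v hv
      rw [Metric.mem_closedBall, dist_eq_norm] at hv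
      have h1 : (inner ℝ a η : ℝ) = r / 2 * ‖η‖ := by
        rw [ha, inner_smul_left, real_inner_self_eq_norm_sq]
        simp only [conj_trivial]
        field_simp
      have h2 : |(inner ℝ (v - a) η : ℝ)| ≤ r / 4 * ‖η‖ := by
        refine (abs_real_inner_le_norm _ _).trans ?_
        exact mul_le_mul_of_nonneg_right hv hηpos.le
      have h3 : (inner ℝ v η : ℝ) = inner ℝ a η + inner ℝ (v - a) η := by
        rw [← inner_add_left]; congr 1; ring
      have h4 : r / 4 * ‖η‖ ≤ (inner ℝ v η : ℝ) := by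
        rw [h3, h1]
        have := (abs_le.1 h2).1
        nlinarith
      have h5 : 0 ≤ r / 4 * ‖η‖ := by positivity
      nlinarith
    have hint : IntegrableOn (fun v : ℂ => (inner ℝ v η : ℝ) ^ 2) (P.K x) :=
      P.integrableOn_of_cont (by fun_prop) x
    calc (r / 4) ^ 2 * (volume (Metric.closedBall (0 : ℂ) (r / 4))).toReal * ‖η‖ ^ 2
        = ∫ v in Metric.closedBall a (r / 4), (r / 4) ^ 2 * ‖η‖ ^ 2 := by
          rw [setIntegral_const, smul_eq_mul, Measure.real,
            MeasureTheory.Measure.addHaar_closedBall_center volume a]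
          ring
      _ ≤ ∫ v in Metric.closedBall a (r / 4), (inner ℝ v η : ℝ) ^ 2 := by
          refine setIntegral_mono_on ?_ (hint.mono_set hsub) Metric.isClosed_closedBall.measurableSet hlow
          exact integrableOn_const (measure_closedBall_lt_top).ne
      _ ≤ ∫ v in P.K x, (inner ℝ v η : ℝ) ^ 2 := by
          refine setIntegral_mono_set hint ?_ (LE.le.eventuallyLE hsub)
          exact Eventually.of_forall fun v => sq_nonneg _

/-! ### measurability -/

lemma measurableSet_Reg (g : G) : MeasurableSet (P.Reg g) := by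
  have h1 : MeasurableSet (P.γ g).source := (P.isOpen_src g).measurableSet
  have h2 : MeasurableSet {x | DifferentiableAt ℝ (P.γ g) x} := measurableSet_of_differentiableAt ℝ _
  have h3 : Measurable fun x => (P.T g x).det :=
    ContinuousLinearMap.continuous_det.measurable.comp (measurable_fderiv ℝ _)
  have h4 : MeasurableSet {x | (P.T g x).det ≠ 0} := h3 (measurableSet_singleton (0:ℝ)).compl
  exact h1.inter (h2.inter h4)

lemma measurableSet_KK [Countable G] : MeasurableSet {p : ℂ × ℂ | p.2 ∈ P.K p.1} := by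
  have : {p : ℂ × ℂ | p.2 ∈ P.K p.1} = {p : ℂ × ℂ | ‖p.2‖ ≤ 1} ∩ ⋂ g : G,
      ({p : ℂ × ℂ | p.1 ∉ P.Reg g} ∪ {p : ℂ × ℂ | ‖P.T g p.1 p.2‖ ^ 2 ≤ |(P.T g p.1).det|}) := by
    ext p
    simp only [K, mem_ofPred_eq, mem_inter_iff, mem_iInter, mem_union]
    refine and_congr_right fun _ => forall_congr' fun g => ?_
    tauto
  rw [this]
  refine (measurableSet_le (by fun_prop) (by fun_prop)).inter ?_
  refine MeasurableSet.iInter fun g => ?_
  refine MeasurableSet.union ?_ ?_
  · exact (measurable_fst (P.measurableSet_Reg g)).compl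
  · have hT : Measurable fun p : ℂ × ℂ => P.T g p.1 :=
      (measurable_fderiv ℝ (P.γ g)).comp measurable_fst
    have hTv : Measurable fun p : ℂ × ℂ => P.T g p.1 p.2 :=
      isBoundedBilinearMap_apply.continuous.measurable.comp (hT.prodMk measurable_snd)
    have hdet : Measurable fun p : ℂ × ℂ => (P.T g p.1).det :=
      ContinuousLinearMap.continuous_det.measurable.comp hT
    exact measurableSet_le (hTv.norm.pow_const 2) (by simpa [Real.norm_eq_abs] using hdet.norm)

lemma measurable_B [Countable G] : Measurable P.B := by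
  have h1 : StronglyMeasurable fun p : ℂ × ℂ => {p : ℂ × ℂ | p.2 ∈ P.K p.1}.indicator
      (fun p => rk p.2) p :=
    (continuous_rk.comp continuous_snd).stronglyMeasurable.indicator P.measurableSet_KK
  have h2 := h1.integral_prod_right' (ν := (volume : Measure ℂ))
  have h3 : P.B = fun x => ∫ v, {p : ℂ × ℂ | p.2 ∈ P.K p.1}.indicator (fun p => rk p.2) (x, v) := by
    funext x
    rw [B_def, ← integral_indicator (P.measurableSet_K x)]
    rfl
  rw [h3]
  exact h2.measurable

/-! ### equivariance -/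

lemma quad_equiv {h : G} {x : ℂ} (hx : x ∈ P.Reg h) (ξ η : ℂ)
    (hξ : ∀ v, (inner ℝ v ξ : ℝ) = inner ℝ (P.T h x v) η) :
    (inner ℝ (P.B x ξ) ξ : ℝ) = |(P.T h x).det| * inner ℝ (P.B (P.γ h x) η) η := by
  set D := |(P.T h x).det| with hD
  have hDpos : 0 < D := abs_pos.2 hx.2.2
  set S : ℂ →L[ℝ] ℂ := (Real.sqrt D)⁻¹ • P.T h x with hS
  have hSv : ∀ v, S v = (Real.sqrt D)⁻¹ • P.T h x v := fun v => rfl
  have hdet : |S.det| = 1 := by
    have h1 : S.det = ((Real.sqrt D)⁻¹) ^ 2 * (P.T h x).det := by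
      have := LinearMap.det_smul ((Real.sqrt D)⁻¹) (P.T h x : ℂ →ₗ[ℝ] ℂ)
      rw [Complex.finrank_real_complex] at this
      exact this
    rw [h1, abs_mul, ← hD, inv_pow, Real.sq_sqrt hDpos.le, abs_of_pos (inv_pos.2 hDpos)]
    exact inv_mul_cancel₀ hDpos.ne'
  have hdet0 : LinearMap.det (S : ℂ →ₗ[ℝ] ℂ) ≠ 0 := by
    intro h0
    have : S.det = 0 := h0
    rw [this] at hdet
    simp at hdet
  have hmp : MeasurePreserving S volume volume := by
    refine ⟨S.continuous.measurable, ?_⟩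
    have h1 := Measure.map_linearMap_addHaar_eq_smul_addHaar (μ := (volume : Measure ℂ)) hdet0
    have h2 : |(LinearMap.det (S : ℂ →ₗ[ℝ] ℂ))⁻¹| = 1 := by
      rw [abs_inv]
      have : |LinearMap.det (S : ℂ →ₗ[ℝ] ℂ)| = 1 := hdet
      rw [this, inv_one]
    rw [h2, ENNReal.ofReal_one, one_smul] at h1
    exact h1
  have hemb : MeasurableEmbedding S := by
    obtain ⟨e, he⟩ := exists_equiv (L := S) hdet0
    have : (S : ℂ → ℂ) = e := by rw [← he]; rfl
    rw [this]
    exact e.toHomeomorph.measurableEmbedding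
  have hpre : S ⁻¹' (P.K (P.γ h x)) = P.K x := by
    ext v
    exact P.mem_K_equiv hx v
  rw [P.B_quad, P.B_quad]
  have h5 := hmp.setIntegral_preimage_emb hemb (fun u => (inner ℝ u η : ℝ) ^ 2) (P.K (P.γ h x))
  rw [← h5, hpre, ← integral_const_mul]
  refine integral_congr_ae (Eventually.of_forall fun v => ?_)
  simp only
  rw [hξ v, hSv, real_inner_smul_left, mul_pow, inv_pow, Real.sq_sqrt hDpos.le]
  field_simp

end PG

end P198ST
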