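import Vale.Agent.P198.C5.Hilb

/-! Difference quotients in `L²` give a weak gradient, and the weak gradient is the pointwise
gradient almost everywhere if the function is differentiable almost everywhere. -/

namespace P198ST

open MeasureTheory Filter Topology Vale.Agent.P363.R.Sob P198C5
open scoped ContDiff ENNReal InnerProductSpace Gradient

noncomputable section

/-- the step sizes -/
def st (n : ℕ) : ℝ := 1 / ((n : ℝ) + 1)

theorem st_pos (n : ℕ) : 0 < st n := by unfold st; positivity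

theorem tendsto_st : Tendsto st atTop (𝓝 0) := tendsto_one_div_add_atTop_nhds_zero_nat

theorem tendsto_st' : Tendsto st atTop (𝓝[≠] 0) :=
  tendsto_nhdsWithin_iff.2 ⟨tendsto_st, Eventually.of_forall fun n => (st_pos n).ne'⟩

/-- the difference quotient in direction `v` -/
def dq1 (w : ℂ → ℝ) (v : ℂ) (n : ℕ) (x : ℂ) : ℝ := (st n)⁻¹ * (w (x + st n • v) - w x)

/-- the two coordinate difference quotients -/
def dq (w : ℂ → ℝ) (n : ℕ) (x : ℂ) : ℂ := ⟨dq1 w 1 n x, dq1 w Complex.I n x⟩

variable {w : ℂ → ℝ}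

theorem continuous_dq1 (hw : Continuous w) (v : ℂ) (n : ℕ) : Continuous (dq1 w v n) := by
  unfold dq1
  fun_prop

theorem hasCompactSupport_dq1 (hc : HasCompactSupport w) (v : ℂ) (n : ℕ) :
    HasCompactSupport (dq1 w v n) := by
  have h1 : HasCompactSupport (fun x => w (x + st n • v)) :=
    hc.comp_homeomorph (Homeomorph.addRight (st n • v))
  have h2 : HasCompactSupport (fun x => w (x + st n • v) - w x) := by
    have h3 := h1.add hc.neg
    simp only [sub_eq_add_neg]
    exact h3
  exact h2.mul_left (f := fun _ => (st n)⁻¹)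

theorem dq_eq (w : ℂ → ℝ) (n : ℕ) (x : ℂ) :
    dq w n x = (dq1 w 1 n x : ℂ) + (dq1 w Complex.I n x : ℂ) * Complex.I := by
  apply Complex.ext <;> simp [dq]

theorem continuous_dq (hw : Continuous w) (n : ℕ) : Continuous (dq w n) := by
  have : dq w n = fun x => (dq1 w 1 n x : ℂ) + (dq1 w Complex.I n x : ℂ) * Complex.I := by
    funext x; exact dq_eq w n x
  rw [this]
  have h1 := continuous_dq1 hw 1 n
  have h2 := continuous_dq1 hw Complex.I n
  fun_prop

theorem hasCompactSupport_dq (hc : HasCompactSupport w) (n : ℕ) : HasCompactSupport (dq w n) := by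
  have : dq w n = fun x => (dq1 w 1 n x : ℂ) + (dq1 w Complex.I n x : ℂ) * Complex.I := by
    funext x; exact dq_eq w n x
  rw [this]
  have h1 : HasCompactSupport (fun x => (dq1 w 1 n x : ℂ)) :=
    (hasCompactSupport_dq1 hc 1 n).comp_left (g := fun r : ℝ => (r : ℂ)) (by simp)
  have h2 : HasCompactSupport (fun x => (dq1 w Complex.I n x : ℂ) * Complex.I) :=
    (hasCompactSupport_dq1 hc Complex.I n).comp_left (g := fun r : ℝ => (r : ℂ) * Complex.I)
      (by simp)
  exact h1.add h2

theorem memLp_dq (hw : Continuous w) (hc : HasCompactSupport w) (n : ℕ) :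
    MemLp (dq w n) 2 volume :=
  (continuous_dq hw n).memLp_of_hasCompactSupport (hasCompactSupport_dq hc n)

theorem inner_dq (w : ℂ → ℝ) (n : ℕ) (x v : ℂ) :
    (inner ℝ (dq w n x) v : ℝ) = v.re * dq1 w 1 n x + v.im * dq1 w Complex.I n x := by
  simp [Complex.inner, dq]

theorem normSq_dq (w : ℂ → ℝ) (n : ℕ) (x : ℂ) :
    ‖dq w n x‖ ^ 2 = dq1 w 1 n x ^ 2 + dq1 w Complex.I n x ^ 2 := by
  rw [← Complex.normSq_eq_norm_sq, Complex.normSq_apply]
  simp only [dq]; ring

/-- summation by parts -/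
theorem integral_dq1_mul (hw : Continuous w) (hc : HasCompactSupport w) {φ : ℂ → ℝ} (hφ : Test φ)
    (v : ℂ) (n : ℕ) :
    ∫ x, dq1 w v n x * φ x = ∫ x, w x * ((st n)⁻¹ * (φ (x - st n • v) - φ x)) := by
  have i1 : Integrable (fun x => w (x + st n • v) * φ x) volume := by
    refine Continuous.integrable_of_hasCompactSupport ?_ hφ.2.mul_left
    have := hφ.continuous
    fun_prop
  have i2 : Integrable (fun x => w x * φ x) volume :=
    Continuous.integrable_of_hasCompactSupport (hw.mul hφ.continuous) hφ.2.mul_left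
  have i3 : Integrable (fun x => w x * φ (x - st n • v)) volume := by
    refine Continuous.integrable_of_hasCompactSupport ?_ hc.mul_right
    have := hφ.continuous
    fun_prop
  have e1 : ∫ x, w (x + st n • v) * φ x = ∫ x, w x * φ (x - st n • v) := by
    rw [← integral_add_right_eq_self (fun x => w x * φ (x - st n • v)) (st n • v)]
    simp
  have e2 : ∀ x, dq1 w v n x * φ x = (st n)⁻¹ * (w (x + st n • v) * φ x - w x * φ x) := by
    intro x; unfold dq1; ring
  have e3 : ∀ x, w x * ((st n)⁻¹ * (φ (x - st n • v) - φ x)) =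
      (st n)⁻¹ * (w x * φ (x - st n • v) - w x * φ x) := by
    intro x; ring
  simp only [e2, e3]
  rw [integral_const_mul, integral_const_mul, integral_sub i1 i2, integral_sub i3 i2, e1]

theorem tendsto_quot_sub {φ : ℂ → ℝ} {x : ℂ} (hφ : DifferentiableAt ℝ φ x) (v : ℂ) :
    Tendsto (fun n => (st n)⁻¹ * (φ (x - st n • v) - φ x)) atTop (𝓝 (- fderiv ℝ φ x v)) := by
  have h1 : HasLineDerivAt ℝ φ (fderiv ℝ φ x (-v)) x (-v) := hφ.hasFDerivAt.hasLineDerivAt (-v)
  have h2 := h1.tendsto_slope_zero.comp tendsto_st'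
  rw [map_neg] at h2
  refine h2.congr fun n => ?_
  simp only [Function.comp_apply, smul_neg, smul_eq_mul, ← sub_eq_add_neg]

theorem tendsto_dq1 {x : ℂ} (hw : DifferentiableAt ℝ w x) (v : ℂ) :
    Tendsto (fun n => dq1 w v n x) atTop (𝓝 (fderiv ℝ w x v)) := by
  have h1 : HasLineDerivAt ℝ w (fderiv ℝ w x v) x v := hw.hasFDerivAt.hasLineDerivAt v
  exact h1.tendsto_slope_zero.comp tendsto_st'

theorem gradient_mk (w : ℂ → ℝ) (x : ℂ) : ∇ w x = ⟨fderiv ℝ w x 1, fderiv ℝ w x Complex.I⟩ := by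
  have key : ∀ v : ℂ, (inner ℝ (∇ w x) v : ℝ) = fderiv ℝ w x v := fun v => by
    rw [gradient, InnerProductSpace.toDual_symm_apply]
  have h1 := key 1
  have h2 := key Complex.I
  rw [inner_one_right] at h1
  rw [inner_I_right] at h2
  exact Complex.ext h1 h2

theorem tendsto_dq {x : ℂ} (hw : DifferentiableAt ℝ w x) :
    Tendsto (fun n => dq w n x) atTop (𝓝 (∇ w x)) := by
  have h1 := tendsto_dq1 hw 1
  have h2 := tendsto_dq1 hw Complex.I
  have h3 : Tendsto (fun n => (dq1 w 1 n x : ℂ) + (dq1 w Complex.I n x : ℂ) * Complex.I) atTop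
      (𝓝 ((fderiv ℝ w x 1 : ℂ) + (fderiv ℝ w x Complex.I : ℂ) * Complex.I)) :=
    ((Complex.continuous_ofReal.tendsto _).comp h1).add
      (((Complex.continuous_ofReal.tendsto _).comp h2).mul_const _)
  have e : ∇ w x = (fderiv ℝ w x 1 : ℂ) + (fderiv ℝ w x Complex.I : ℂ) * Complex.I := by
    rw [gradient_mk]
    apply Complex.ext <;> simp
  rw [e]
  exact h3.congr fun n => (dq_eq w n x).symm

theorem tendsto_integral_dq1 (hw : Continuous w) (hc : HasCompactSupport w) {φ : ℂ → ℝ}
    (hφ : Test φ) (v : ℂ) :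
    Tendsto (fun n => ∫ x, dq1 w v n x * φ x) atTop (𝓝 (- ∫ x, w x * fderiv ℝ φ x v)) := by
  obtain ⟨C, hC⟩ := (hφ.1.of_le (m := 1) (by simp)).lipschitzWith_of_hasCompactSupport hφ.2
    (by simp)
  have e : (- ∫ x, w x * fderiv ℝ φ x v) = ∫ x, w x * (- fderiv ℝ φ x v) := by
    simp only [mul_neg, integral_neg]
  rw [e]
  simp only [integral_dq1_mul hw hc hφ]
  refine tendsto_integral_of_dominated_convergence (fun x => ‖w x‖ * (C * ‖v‖)) ?_ ?_ ?_ ?_
  · intro n
    have := hφ.continuous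
    exact (Continuous.aestronglyMeasurable (by fun_prop))
  · exact ((hw.integrable_of_hasCompactSupport hc).norm).mul_const _
  · intro n
    refine Eventually.of_forall fun x => ?_
    rw [norm_mul]
    refine mul_le_mul_of_nonneg_left ?_ (norm_nonneg _)
    rw [norm_mul]
    have h1 := hC.dist_le_mul (x - st n • v) x
    rw [dist_eq_norm, dist_eq_norm] at h1
    have h2 : ‖x - st n • v - x‖ = st n * ‖v‖ := by
      rw [sub_right_comm, sub_self, zero_sub, norm_neg, norm_smul, Real.norm_of_nonneg (st_pos n).le]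
    rw [h2] at h1
    rw [norm_inv, Real.norm_of_nonneg (st_pos n).le]
    calc (st n)⁻¹ * ‖φ (x - st n • v) - φ x‖ ≤ (st n)⁻¹ * (C * (st n * ‖v‖)) := by
          gcongr
          exact inv_nonneg.2 (st_pos n).le
      _ = C * ‖v‖ := by
          have := (st_pos n).ne'
          field_simp
  · refine Eventually.of_forall fun x => ?_
    exact (tendsto_quot_sub (hφ.differentiable x) v).const_mul _

theorem tendsto_integral_dq (hw : Continuous w) (hc : HasCompactSupport w) {φ : ℂ → ℝ}
    (hφ : Test φ) (v : ℂ) :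
    Tendsto (fun n => ∫ x, (inner ℝ (dq w n x) v : ℝ) * φ x) atTop
      (𝓝 (- ∫ x, w x * fderiv ℝ φ x v)) := by
  have t1 := (tendsto_integral_dq1 hw hc hφ 1).const_mul v.re
  have t2 := (tendsto_integral_dq1 hw hc hφ Complex.I).const_mul v.im
  have i : ∀ v' : ℂ, ∀ n, Integrable (fun x => dq1 w v' n x * φ x) volume := fun v' n =>
    Continuous.integrable_of_hasCompactSupport ((continuous_dq1 hw v' n).mul hφ.continuous)
      hφ.2.mul_left
  have j : ∀ v' : ℂ, Integrable (fun x => w x * fderiv ℝ φ x v') volume := fun v' =>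
    Continuous.integrable_of_hasCompactSupport (hw.mul (hφ.fderiv v').continuous) hc.mul_right
  have e1 : ∀ n, ∫ x, (inner ℝ (dq w n x) v : ℝ) * φ x =
      v.re * (∫ x, dq1 w 1 n x * φ x) + v.im * ∫ x, dq1 w Complex.I n x * φ x := by
    intro n
    rw [← integral_const_mul, ← integral_const_mul, ← integral_add ((i _ n).const_mul _)
      ((i _ n).const_mul _)]
    refine integral_congr_ae (Eventually.of_forall fun x => ?_)
    simp only [inner_dq]; ring
  have e2 : (- ∫ x, w x * fderiv ℝ φ x v) = v.re * (- ∫ x, w x * fderiv ℝ φ x 1) +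
      v.im * (- ∫ x, w x * fderiv ℝ φ x Complex.I) := by
    rw [mul_neg, mul_neg, ← neg_add, ← integral_const_mul, ← integral_const_mul,
      ← integral_add ((j _).const_mul _) ((j _).const_mul _)]
    congr 1
    refine integral_congr_ae (Eventually.of_forall fun x => ?_)
    have : v = v.re • (1 : ℂ) + v.im • Complex.I := by
      apply Complex.ext <;> simp
    simp only
    conv_lhs => rw [this]
    rw [map_add, map_smul, map_smul]
    simp only [smul_eq_mul]; ring
  rw [e2]
  exact (t1.add t2).congr fun n => (e1 n).symm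

/-- the `L²` norm of the difference quotients -/
theorem integral_normSq_dq_le (hw : Continuous w) (hc : HasCompactSupport w) {M : ℝ}
    (hM : ∀ᶠ h in 𝓝[≠] (0 : ℂ), ∫ x, (w (x + h) - w x) ^ 2 ≤ M * ‖h‖ ^ 2) :
    ∀ᶠ n in atTop, ∫ x, ‖dq w n x‖ ^ 2 ≤ 2 * M := by
  have t : ∀ v : ℂ, v ≠ 0 → Tendsto (fun n => st n • v) atTop (𝓝[≠] (0 : ℂ)) := by
    intro v hv
    refine tendsto_nhdsWithin_iff.2 ⟨?_, Eventually.of_forall fun n => ?_⟩
    · have := tendsto_st.smul_const v
      simpa using this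
    · simp only [Set.mem_compl_iff, Set.mem_singleton_iff, smul_eq_zero, not_or]
      exact ⟨(st_pos n).ne', hv⟩
  have key : ∀ v : ℂ, ‖v‖ = 1 → ∀ᶠ n in atTop, ∫ x, dq1 w v n x ^ 2 ≤ M := by
    intro v hv
    have hv0 : v ≠ 0 := by
      rintro rfl; simp at hv
    filter_upwards [(t v hv0).eventually hM] with n hn
    have e : ∀ x, dq1 w v n x ^ 2 = ((st n)⁻¹) ^ 2 * (w (x + st n • v) - w x) ^ 2 := by
      intro x; unfold dq1; ring
    simp only [e]
    rw [integral_const_mul]
    have h2 : ‖st n • v‖ = st n := by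
      rw [norm_smul, hv, mul_one, Real.norm_of_nonneg (st_pos n).le]
    rw [h2] at hn
    have h3 := st_pos n
    calc (st n)⁻¹ ^ 2 * ∫ x, (w (x + st n • v) - w x) ^ 2 ≤ (st n)⁻¹ ^ 2 * (M * st n ^ 2) := by
          gcongr
      _ = M := by field_simp
  filter_upwards [key 1 (by simp), key Complex.I (by simp)] with n h1 h2
  have i : ∀ v' : ℂ, Integrable (fun x => dq1 w v' n x ^ 2) volume := fun v' =>
    Continuous.integrable_of_hasCompactSupport ((continuous_dq1 hw v' n).pow 2)
      ((hasCompactSupport_dq1 hc v' n).comp_left (g := fun r : ℝ => r ^ 2) (by simp))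
  simp only [normSq_dq]
  rw [integral_add (i _) (i _)]
  linarith

/-- weak limits and almost everywhere limits agree -/
theorem weak_ae {U : Filter ℕ} [U.NeBot] (hU : U ≤ atTop) {D : ℕ → L2C}
    (hw : ∀ K : L2C, Tendsto (fun n => ip K (D n)) U (𝓝 0)) {d : ℂ → ℂ} (hd : Measurable d)
    (hae : ∀ᵐ x, Tendsto (fun n => (D n : ℂ → ℂ) x) atTop (𝓝 (d x))) : d =ᵐ[volume] 0 := by
  have hDm : ∀ n, Measurable (D n : ℂ → ℂ) := fun n => (Lp.stronglyMeasurable (D n)).measurable
  set E : ℕ → Set ℂ := fun N => {x | ‖x‖ ≤ N ∧ ‖d x‖ ≤ N ∧ ∀ n, N ≤ n → ‖(D n : ℂ → ℂ) x - d x‖ ≤ 1}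
    with hE
  have hEm : ∀ N, MeasurableSet (E N) := by
    intro N
    have h1 : MeasurableSet {x : ℂ | ‖x‖ ≤ N} := measurableSet_le measurable_norm measurable_const
    have h2 : MeasurableSet {x : ℂ | ‖d x‖ ≤ N} := measurableSet_le hd.norm measurable_const
    have h3 : MeasurableSet {x : ℂ | ∀ n, N ≤ n → ‖(D n : ℂ → ℂ) x - d x‖ ≤ 1} := by
      simp only [Set.ofPred_forall]
      refine MeasurableSet.iInter fun n => MeasurableSet.iInter fun _ => ?_
      exact measurableSet_le ((hDm n).sub hd).norm measurable_const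
    exact h1.inter (h2.inter h3)
  have hfin : ∀ N, volume (E N) < ⊤ := by
    intro N
    refine lt_of_le_of_lt (measure_mono (t := Metric.closedBall 0 N) ?_) measure_closedBall_lt_top
    intro x hx
    simpa using hx.1
  have hcov : ∀ᵐ x, ∃ N, x ∈ E N := by
    filter_upwards [hae] with x hx
    obtain ⟨n1, hn1⟩ := exists_nat_ge ‖x‖
    obtain ⟨n2, hn2⟩ := exists_nat_ge ‖d x‖
    obtain ⟨n3, hn3⟩ := Metric.tendsto_atTop.1 hx 1 one_pos
    refine ⟨max n1 (max n2 n3), ?_, ?_, ?_⟩
    · exact hn1.trans (by exact_mod_cast le_max_left _ _)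
    · exact hn2.trans (by exact_mod_cast (le_max_left _ _).trans (le_max_right _ _))
    · intro n hn
      have := hn3 n (((le_max_right _ _).trans (le_max_right _ _)).trans hn)
      rw [dist_eq_norm] at this
      exact this.le
  have hzero : ∀ N, ∀ᵐ x, x ∈ E N → d x = 0 := by
    intro N
    have : IsFiniteMeasure (volume.restrict (E N)) := ⟨by
      rw [Measure.restrict_apply_univ]; exact hfin N⟩
    have hmem : ∀ᵐ x ∂(volume.restrict (E N)), x ∈ E N := ae_restrict_mem (hEm N)
    have hdl : MemLp d 2 (volume.restrict (E N)) := by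
      refine MemLp.of_bound hd.aestronglyMeasurable (N : ℝ) ?_
      filter_upwards [hmem] with x hx using hx.2.1
    have hK : MemLp ((E N).indicator d) 2 volume := (memLp_indicator_iff_restrict (hEm N)).2 hdl
    have e : ∀ n, ip (hK.toLp _) (D n) = ∫ x in E N, (inner ℝ (d x) ((D n : ℂ → ℂ) x) : ℝ) := by
      intro n
      rw [ip_eq, ← integral_indicator (hEm N)]
      refine integral_congr_ae ?_
      filter_upwards [hK.coeFn_toLp] with x hx
      rw [hx]
      by_cases hxE : x ∈ E N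
      · simp only [Set.indicator_of_mem hxE]
      · simp only [Set.indicator_of_notMem hxE, inner_zero_left]
    have t : Tendsto (fun n => ∫ x in E N, (inner ℝ (d x) ((D n : ℂ → ℂ) x) : ℝ)) atTop
        (𝓝 (∫ x in E N, (inner ℝ (d x) (d x) : ℝ))) := by
      refine tendsto_integral_filter_of_dominated_convergence (fun _ => (N : ℝ) * (N + 1)) ?_ ?_ ?_ ?_
      · refine Eventually.of_forall fun n => ?_
        exact (hd.aestronglyMeasurable.inner (hDm n).aestronglyMeasurable)
      · filter_upwards [eventually_ge_atTop N] with n hn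
        filter_upwards [hmem] with x hx
        have h1 := hx.2.1
        have h2 := hx.2.2 n hn
        have h3 : ‖(D n : ℂ → ℂ) x‖ ≤ N + 1 := by
          calc ‖(D n : ℂ → ℂ) x‖ = ‖d x + ((D n : ℂ → ℂ) x - d x)‖ := by rw [add_sub_cancel]
            _ ≤ ‖d x‖ + ‖(D n : ℂ → ℂ) x - d x‖ := norm_add_le _ _
            _ ≤ N + 1 := by linarith
        calc ‖(inner ℝ (d x) ((D n : ℂ → ℂ) x) : ℝ)‖ ≤ ‖d x‖ * ‖(D n : ℂ → ℂ) x‖ :=
              norm_inner_le_norm _ _
          _ ≤ N * (N + 1) := by gcongr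
      · exact integrable_const _
      · filter_upwards [ae_restrict_of_ae hae] with x hx
        exact tendsto_const_nhds.inner hx
    have e0 : ∫ x in E N, (inner ℝ (d x) (d x) : ℝ) = 0 :=
      tendsto_nhds_unique (t.mono_left hU) ((hw (hK.toLp _)).congr e)
    have hi : IntegrableOn (fun x => (inner ℝ (d x) (d x) : ℝ)) (E N) volume := by
      have h5 := hdl.integrable_norm_pow (by norm_num)
      simp only [real_inner_self_eq_norm_sq]
      exact h5
    rw [setIntegral_eq_zero_iff_of_nonneg_ae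
      (Eventually.of_forall fun x => real_inner_self_nonneg) hi] at e0
    rw [← ae_restrict_iff' (hEm N)]
    filter_upwards [e0] with x hx
    exact inner_self_eq_zero.1 hx
  filter_upwards [hcov, ae_all_iff.2 hzero] with x h1 h2
  obtain ⟨N, hN⟩ := h1
  exact h2 N hN

/-- **difference quotients**: a weak gradient exists, and it is a weak limit of the difference
quotients -/
theorem exists_wg_weak (hw : Continuous w) (hc : HasCompactSupport w) {M : ℝ}
    (hM : ∀ᶠ h in 𝓝[≠] (0 : ℂ), ∫ x, (w (x + h) - w x) ^ 2 ≤ M * ‖h‖ ^ 2) :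
    ∃ G : L2C, WG w G ∧ ‖G‖ ^ 2 ≤ 2 * M ∧ ∃ U : Ultrafilter ℕ, (U : Filter ℕ) ≤ atTop ∧
      ∀ K : L2C, Tendsto (fun n => ip K ((memLp_dq hw hc n).toLp _)) U (𝓝 (ip K G)) := by
  have hn := integral_normSq_dq_le hw hc hM
  have hM0 : 0 ≤ 2 * M := by
    obtain ⟨n, hn⟩ := hn.exists
    exact (integral_nonneg fun x => sq_nonneg _).trans hn
  let U : Ultrafilter ℕ := Ultrafilter.of atTop
  have hU : (U : Filter ℕ) ≤ atTop := Ultrafilter.of_le _
  have hb : ∀ᶠ n in (U : Filter ℕ), ‖((memLp_dq hw hc n).toLp _ : L2C)‖ ≤ √(2 * M) := by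
    filter_upwards [hU hn] with n hn
    refine Real.le_sqrt_of_sq_le ?_
    rw [norm_sq_toLp]
    exact hn
  obtain ⟨G, hG, hm⟩ := exists_weak_lim U (fun n => ((memLp_dq hw hc n).toLp _ : L2C)) _ hb
  refine ⟨G, ?_, ?_, U, hU, hG⟩
  · refine wg_iff.2 fun φ hφ v => ?_
    have t1 := hG (tv hφ v)
    have t2 := (tendsto_integral_dq hw hc hφ v).mono_left hU
    have e : ∀ n, (inner ℝ (tv hφ v) ((memLp_dq hw hc n).toLp _ : L2C) : ℝ) =
        ∫ x, (inner ℝ (dq w n x) v : ℝ) * φ x := by
      intro n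
      have := ip_tv hφ v ((memLp_dq hw hc n).toLp _ : L2C)
      refine this.trans (integral_congr_ae ?_)
      filter_upwards [(memLp_dq hw hc n).coeFn_toLp] with x hx
      rw [hx]
    have t3 := t2.congr fun n => (e n).symm
    have := tendsto_nhds_unique t1 t3
    have h4 : ip (tv hφ v) G = - ∫ x, w x * fderiv ℝ φ x v := this
    rw [h4, neg_neg]
  · calc ‖G‖ ^ 2 ≤ √(2 * M) ^ 2 := by
          have := hm _ hb
          gcongr
      _ = 2 * M := Real.sq_sqrt hM0

theorem wg_of_quot (hw : Continuous w) (hc : HasCompactSupport w) {M : ℝ}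
    (hM : ∀ᶠ h in 𝓝[≠] (0 : ℂ), ∫ x, (w (x + h) - w x) ^ 2 ≤ M * ‖h‖ ^ 2) :
    ∃ g : ℂ → ℂ, WG w g ∧ ∫ x, ‖g x‖ ^ 2 ≤ 2 * M := by
  obtain ⟨G, h1, h2, -⟩ := exists_wg_weak hw hc hM
  exact ⟨G, h1, by rwa [← norm_sq_eq]⟩

theorem measurable_gradient (w : ℂ → ℝ) : Measurable (∇ w) := by
  have h1 : Measurable (fderiv ℝ w) := measurable_fderiv ℝ w
  exact (InnerProductSpace.toDual ℝ ℂ).symm.continuous.measurable.comp h1

/-- the weak gradient is the pointwise gradient -/
theorem wg_gradient_of_quot (hw : Continuous w) (hc : HasCompactSupport w) {M : ℝ}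
    (hM : ∀ᶠ h in 𝓝[≠] (0 : ℂ), ∫ x, (w (x + h) - w x) ^ 2 ≤ M * ‖h‖ ^ 2)
    (hd : ∀ᵐ x, DifferentiableAt ℝ w x) : WG w (∇ w) := by
  obtain ⟨G, h1, -, U, hU, hK⟩ := exists_wg_weak hw hc hM
  set D : ℕ → L2C := fun n => (memLp_dq hw hc n).toLp _ - G with hD
  have hGm : Measurable (G : ℂ → ℂ) := (Lp.stronglyMeasurable G).measurable
  have key : (fun x => ∇ w x - (G : ℂ → ℂ) x) =ᵐ[volume] 0 := by
    refine weak_ae hU (D := D) (fun K => ?_) ((measurable_gradient w).sub hGm) ?_
    · have := (hK K).sub_const (ip K G)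
      rw [sub_self] at this
      refine this.congr fun n => ?_
      simp only [hD, ip, inner_sub_right]
    · have h2 : ∀ᵐ x, ∀ n, ((memLp_dq hw hc n).toLp _ - G : L2C) x = dq w n x - (G : ℂ → ℂ) x := by
        rw [ae_all_iff]
        intro n
        filter_upwards [Lp.coeFn_sub ((memLp_dq hw hc n).toLp _ : L2C) G,
          (memLp_dq hw hc n).coeFn_toLp] with x h3 h4
        rw [h3, Pi.sub_apply, h4]
      filter_upwards [h2, hd] with x h3 h4
      refine ((tendsto_dq h4).sub_const _).congr fun n => ?_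
      exact (h3 n).symm
  refine h1.congr (EventuallyEq.refl _ _) ?_
  filter_upwards [key] with x hx
  exact (sub_eq_zero.1 hx).symm

end

end P198ST
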