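import Mathlib

/-!
# Stepanov's theorem and a.e. differentiability of homeomorphisms of the plane

Block ST1 of problem P198.
-/

open Filter Metric MeasureTheory Set Topology
open scoped ENNReal NNReal

namespace P198ST

section Stepanov

variable {E F : Type*} [NormedAddCommGroup E] [NormedSpace ℝ E]
  [NormedAddCommGroup F] [NormedSpace ℝ F]

/-- If `f` is differentiable at `x` within a set `S` which is dense at `x` at all scales and `f`
is uniformly Lipschitz at the points of `S`, then `f` is differentiable at `x`. -/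
theorem hasFDerivAt_of_dense {f : E → F} {L : E →L[ℝ] F} {S : Set E} {x : E} {C : ℝ}
    (hS : ∀ ε > 0, ∀ᶠ y in 𝓝 x, ∃ y' ∈ S, ‖y - y'‖ ≤ ε * ‖y - x‖)
    (hf : ∃ δ > 0, ∀ y' ∈ S, ∀ y, ‖y - y'‖ ≤ δ → ‖f y - f y'‖ ≤ C * ‖y - y'‖)
    (hL : HasFDerivWithinAt f L S x) : HasFDerivAt f L x := by
  obtain ⟨δ, hδ, hf⟩ := hf
  rw [hasFDerivAt_iff_isLittleO, Asymptotics.isLittleO_iff]
  intro c hc
  -- choose ε
  set M : ℝ := |C| + 2 + ‖L‖ with hM
  have hMpos : 0 < M := by positivity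
  set ε : ℝ := min 1 (c / M) with hε
  have hεpos : 0 < ε := by positivity
  have hε1 : ε ≤ 1 := min_le_left _ _
  have hεM : ε * M ≤ c := by
    have : ε ≤ c / M := min_le_right _ _
    calc ε * M ≤ c / M * M := by gcongr
      _ = c := by field_simp
  have h1 := (hasFDerivWithinAt_iff_isLittleO.1 hL)
  rw [Asymptotics.isLittleO_iff] at h1
  have h2 := h1 hεpos
  rw [eventually_nhdsWithin_iff, Metric.eventually_nhds_iff] at h2
  obtain ⟨r, hr, h2⟩ := h2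
  have hb : ∀ᶠ y in 𝓝 x, dist y x < min (r / 2) (δ) := by
    apply Metric.eventually_nhds_iff.2 ⟨min (r/2) δ, by positivity, fun y hy => hy⟩
  filter_upwards [hS ε hεpos, hb] with y hy hyb
  obtain ⟨y', hy'S, hy'⟩ := hy
  have hyr : ‖y - x‖ < r / 2 := by
    rw [← dist_eq_norm]; exact lt_of_lt_of_le hyb (min_le_left _ _)
  have hyδ : ‖y - x‖ < δ := by
    rw [← dist_eq_norm]; exact lt_of_lt_of_le hyb (min_le_right _ _)
  have hyy : ‖y - y'‖ ≤ ‖y - x‖ := by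
    calc ‖y - y'‖ ≤ ε * ‖y - x‖ := hy'
      _ ≤ 1 * ‖y - x‖ := by gcongr
      _ = ‖y - x‖ := one_mul _
  have hy'x : ‖y' - x‖ ≤ 2 * ‖y - x‖ := by
    calc ‖y' - x‖ = ‖(y - x) - (y - y')‖ := by congr 1; abel
      _ ≤ ‖y - x‖ + ‖y - y'‖ := norm_sub_le _ _
      _ ≤ 2 * ‖y - x‖ := by linarith
  have h3 : ‖f y' - f x - L (y' - x)‖ ≤ ε * ‖y' - x‖ := by
    apply h2 _ hy'S
    rw [dist_eq_norm]
    linarith
  have h4 : ‖f y - f y'‖ ≤ |C| * (ε * ‖y - x‖) := by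
    calc ‖f y - f y'‖ ≤ C * ‖y - y'‖ := hf y' hy'S y (by linarith)
      _ ≤ |C| * ‖y - y'‖ := by gcongr; exact le_abs_self C
      _ ≤ |C| * (ε * ‖y - x‖) := by gcongr
  have h5 : ‖L (y' - y)‖ ≤ ‖L‖ * (ε * ‖y - x‖) := by
    calc ‖L (y' - y)‖ ≤ ‖L‖ * ‖y' - y‖ := L.le_opNorm _
      _ = ‖L‖ * ‖y - y'‖ := by rw [norm_sub_rev]
      _ ≤ ‖L‖ * (ε * ‖y - x‖) := by gcongr
  have h6 : f y - f x - L (y - x) = (f y - f y') + (f y' - f x - L (y' - x)) + L (y' - y) := by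
    have : L (y - x) = L (y' - x) - L (y' - y) := by
      rw [← map_sub]; congr 1; abel
    rw [this]; abel
  rw [h6]
  calc ‖(f y - f y') + (f y' - f x - L (y' - x)) + L (y' - y)‖
      ≤ ‖f y - f y'‖ + ‖f y' - f x - L (y' - x)‖ + ‖L (y' - y)‖ := norm_add₃_le
    _ ≤ |C| * (ε * ‖y - x‖) + ε * (2 * ‖y - x‖) + ‖L‖ * (ε * ‖y - x‖) := by
        gcongr
        exact h3.trans (by gcongr)
    _ = (ε * M) * ‖y - x‖ := by rw [hM]; ring
    _ ≤ c * ‖y - x‖ := by gcongr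

variable [FiniteDimensional ℝ E] [MeasurableSpace E] [BorelSpace E] [FiniteDimensional ℝ F]

/-- Almost every point of `S` satisfies the density hypothesis of `hasFDerivAt_of_dense`. -/
theorem ae_dense (μ : Measure E) [μ.IsAddHaarMeasure] (S : Set E) :
    ∀ᵐ x ∂μ, x ∈ S → ∀ ε > 0, ∀ᶠ y in 𝓝 x, ∃ y' ∈ S, ‖y - y'‖ ≤ ε * ‖y - x‖ := by
  have h0 : ∀ᵐ x ∂μ, ∀ k : ℕ, x ∈ S →
      ∀ {ι : Type _} {l : Filter ι} (w : ι → E) (δ : ι → ℝ) (_ : Tendsto δ l (𝓝[>] 0))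
      (_ : ∀ᶠ j in l, x ∈ closedBall (w j) ((k : ℝ) * δ j)),
      Tendsto (fun j => μ (S ∩ closedBall (w j) (δ j)) / μ (closedBall (w j) (δ j))) l (𝓝 1) := by
    rw [ae_all_iff]
    intro k
    have := IsUnifLocDoublingMeasure.ae_tendsto_measure_inter_div (μ := μ) S (k : ℝ)
    exact ae_imp_of_ae_restrict this
  filter_upwards [h0] with x hx hxS ε hε
  obtain ⟨k, hk⟩ := exists_nat_gt (1 / ε)
  have hkpos : (0 : ℝ) < k := lt_trans (by positivity) hk
  -- punctured neighbourhood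
  have h1 : ∀ᶠ y in 𝓝[≠] x, ∃ y' ∈ S, ‖y - y'‖ ≤ ε * ‖y - x‖ := by
    have hδ : Tendsto (fun y => ‖y - x‖ / k) (𝓝[≠] x) (𝓝[>] 0) := by
      rw [tendsto_nhdsWithin_iff]
      constructor
      · have : Tendsto (fun y => ‖y - x‖ / k) (𝓝 x) (𝓝 (‖x - x‖ / k)) := by
          apply Continuous.tendsto
          fun_prop
        simp only [sub_self, norm_zero, zero_div] at this
        exact this.mono_left nhdsWithin_le_nhds
      · filter_upwards [self_mem_nhdsWithin] with y hy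
        have : 0 < ‖y - x‖ := norm_pos_iff.2 (sub_ne_zero.2 hy)
        exact div_pos this hkpos
    have h2 := hx k hxS (fun y => y) (fun y => ‖y - x‖ / k) hδ (by
      filter_upwards with y
      rw [mem_closedBall, dist_comm, dist_eq_norm]
      rw [mul_div_cancel₀ _ hkpos.ne'])
    have h3 : ∀ᶠ y in 𝓝[≠] x, 0 < μ (S ∩ closedBall y (‖y - x‖ / k)) /
        μ (closedBall y (‖y - x‖ / k)) := h2.eventually (lt_mem_nhds zero_lt_one)
    filter_upwards [h3] with y hy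
    have h4 : μ (S ∩ closedBall y (‖y - x‖ / k)) ≠ 0 := by
      intro h
      rw [h] at hy
      simp at hy
    have h5 : (S ∩ closedBall y (‖y - x‖ / k)).Nonempty := by
      by_contra hne
      rw [not_nonempty_iff_eq_empty] at hne
      rw [hne] at h4
      simp at h4
    obtain ⟨y', hy'S, hy'⟩ := h5
    refine ⟨y', hy'S, ?_⟩
    rw [mem_closedBall, dist_comm, dist_eq_norm] at hy'
    calc ‖y - y'‖ ≤ ‖y - x‖ / k := hy'
      _ = (1 / k) * ‖y - x‖ := by ring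
      _ ≤ ε * ‖y - x‖ := by
        gcongr
        rw [div_le_iff₀ hkpos]
        rw [div_lt_iff₀ hε] at hk
        linarith
  rw [eventually_nhdsWithin_iff] at h1
  filter_upwards [h1] with y hy
  by_cases hyx : y = x
  · exact ⟨x, hxS, by simp [hyx]⟩
  · exact hy hyx

/-- **Stepanov's theorem**. -/
theorem stepanov' (μ : Measure E) [μ.IsAddHaarMeasure] {f : E → F} (s : Set E)
    (hs : ∀ x ∈ s, ∃ C : ℝ, ∀ᶠ y in 𝓝 x, ‖f y - f x‖ ≤ C * ‖y - x‖) :
    ∀ᵐ x ∂μ, x ∈ s → DifferentiableAt ℝ f x := by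
  classical
  let A : ℕ → Set E := fun n => {x | ∀ y, ‖y - x‖ ≤ 1 / ((n : ℝ) + 1) → ‖f y - f x‖ ≤ n * ‖y - x‖}
  have hA : ∀ x ∈ s, ∃ n, x ∈ A n := by
    intro x hx
    obtain ⟨C, hC⟩ := hs x hx
    rw [Metric.eventually_nhds_iff] at hC
    obtain ⟨r, hr, hC⟩ := hC
    obtain ⟨n, hn⟩ := exists_nat_gt (max C (1 / r))
    refine ⟨n, fun y hy => ?_⟩
    have hn1 : 1 / r < n := lt_of_le_of_lt (le_max_right _ _) hn
    have hn0 : (0 : ℝ) < n := lt_trans (by positivity) hn1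
    have : ‖y - x‖ < r := by
      apply lt_of_le_of_lt hy
      rw [div_lt_iff₀ (by positivity)]
      rw [div_lt_iff₀ hr] at hn1
      nlinarith
    calc ‖f y - f x‖ ≤ C * ‖y - x‖ := hC (by rw [dist_eq_norm]; exact this)
      _ ≤ n * ‖y - x‖ := by
        gcongr
        exact le_trans (le_max_left _ _) hn.le
  obtain ⟨d, hd⟩ := TopologicalSpace.exists_dense_seq E
  let S : ℕ → ℕ → Set E := fun n k => A n ∩ ball (d k) (1 / (2 * ((n : ℝ) + 1)))
  have hSlip : ∀ n k : ℕ, LipschitzOnWith (n : ℝ≥0) f (S n k) := by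
    intro n k
    rw [lipschitzOnWith_iff_norm_sub_le]
    intro y hy x hx
    have hyx : ‖y - x‖ ≤ 1 / ((n : ℝ) + 1) := by
      have h1 := hy.2
      have h2 := hx.2
      rw [mem_ball] at h1 h2
      rw [← dist_eq_norm]
      calc dist y x ≤ dist y (d k) + dist x (d k) := dist_triangle_right _ _ _
        _ ≤ 1 / (2 * ((n : ℝ) + 1)) + 1 / (2 * ((n : ℝ) + 1)) := by gcongr
        _ = 1 / ((n : ℝ) + 1) := by field_simp; ring
    have := hx.1 y hyx
    simpa using this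
  have h1 : ∀ᵐ x ∂μ, ∀ n k, x ∈ S n k → DifferentiableWithinAt ℝ f (S n k) x := by
    rw [ae_all_iff]; intro n
    rw [ae_all_iff]; intro k
    exact (hSlip n k).ae_differentiableWithinAt_of_mem
  have h2 : ∀ᵐ x ∂μ, ∀ n k, x ∈ S n k → ∀ ε > 0, ∀ᶠ y in 𝓝 x,
      ∃ y' ∈ S n k, ‖y - y'‖ ≤ ε * ‖y - x‖ := by
    rw [ae_all_iff]; intro n
    rw [ae_all_iff]; intro k
    exact ae_dense μ (S n k)
  filter_upwards [h1, h2] with x hx1 hx2 hxs
  obtain ⟨n, hn⟩ := hA x hxs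
  have hpos : (0 : ℝ) < 1 / (2 * ((n : ℝ) + 1)) := by positivity
  obtain ⟨k, hk⟩ := hd.exists_dist_lt x hpos
  have hxS : x ∈ S n k := ⟨hn, by rw [mem_ball]; exact hk⟩
  obtain ⟨L, hL⟩ := hx1 n k hxS
  refine (hasFDerivAt_of_dense (C := n) (hx2 n k hxS) ⟨1 / ((n : ℝ) + 1), by positivity, ?_⟩
    hL).differentiableAt
  intro y' hy' y hy
  exact hy'.1 y hy

end Stepanov

/-- Stepanov's theorem in the plane. -/
theorem stepanov {f : ℂ → ℂ} (s : Set ℂ)
    (hs : ∀ x ∈ s, ∃ C : ℝ, ∀ᶠ y in 𝓝 x, ‖f y - f x‖ ≤ C * ‖y - x‖) :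
    ∀ᵐ x, x ∈ s → DifferentiableAt ℝ f x := stepanov' volume s hs

end P198ST
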